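import Crest.Agent.R163.E2.Sound
import Crest.Agent.R163.E2.Local
import Crest.Agent.R163.E2.CertDef
import Crest.Agent.R163.E2.CertLoc0
import Crest.Agent.R163.E2.CertLoc
import Crest.Agent.R163.E2.CertT0
import Crest.Agent.R163.E2.CertT1
import Crest.Agent.R163.E2.CertT2
import Crest.Agent.R163.E2.CertT3
import Crest.Agent.R163.E2.CertT4
import Crest.Agent.R163.E2.CertT5
import Crest.Agent.R163.E2.CertT6
import Crest.Agent.R163.E2.CertT7
import Crest.Agent.R163.E2.CertT8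
import Crest.Agent.R163.E2.CertT9
import Crest.Agent.R163.E2.CertT10
import Crest.Agent.R163.E2.CertT11
import Crest.Agent.R163.E2.CertT12
import Crest.Agent.R163.E2.CertT13
import Crest.Agent.R163.E2.CertT14
import Crest.Agent.R163.E2.CertT15
import Crest.Agent.R163.E2.CertT16
import Crest.Agent.R163.E2.CertT17
import Crest.Agent.R163.E2.CertT18
import Crest.Agent.R163.E2.CertT19
import Crest.Agent.R163.E2.CertT20
import Crest.Agent.R163.E2.CertT21
import Crest.Agent.R163.E2.CertT22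
import Crest.Agent.R163.E2.CertT23
import Crest.Agent.R163.E2.CertT24
import Crest.Agent.R163.E2.CertT25
import Crest.Agent.R163.E2.CertT26
import Crest.Agent.R163.E2.CertT27
import Crest.Agent.R163.E2.CertT28
import Crest.Agent.R163.E2.CertT29
import Crest.Agent.R163.E2.CertT30
import Crest.Agent.R163.E2.CertT31
import Crest.Agent.R163.E2.CertT32
import Crest.Agent.R163.E2.CertT33
import Crest.Agent.R163.E2.CertT34

/-! # R163/E2/Cert: the verified inequalities (generated) -/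

set_option autoImplicit false

namespace Crest.Agent.R163.E2

open Tr

theorem q4B_holds : Holds q4B true 6 ⟨0, 2, true⟩ ⟨0, 2, true⟩ ⟨0, 2, true⟩ :=
  have hl : 9 ≠ 0 → LocHolds q4B true 6 9 := (fun _ => locCheck_sound q4B_loc)
  (Holds.x rfl (Holds.y rfl (Holds.z rfl (Holds.x rfl (Holds.y rfl (Holds.z rfl (Holds.x rfl (Holds.y rfl
    (Holds.z rfl (Holds.x rfl (Holds.y rfl (Holds.z rfl (Holds.x rfl (Holds.y rfl (Holds.z rfl (Holds.x rfl
    (Holds.y rfl (Holds.z rfl (Holds.x rfl (Holds.y rfl (Holds.z rfl (Holds.x rfl (Holds.y rfl (Holds.z rfl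
    (Holds.x rfl (Holds.y rfl (check_sound hl q4B_c0) (Holds.z rfl (Holds.x rfl (Holds.y rfl (check_sound hl
    q4B_c1) (check_sound hl q4B_c2)) (check_sound hl q4B_c3)) (check_sound hl q4B_c4))) (Holds.y rfl (Holds.z
    rfl (check_sound hl q4B_c5) (check_sound hl q4B_c6)) (check_sound hl q4B_c7))) (check_sound hl q4B_c8))
    (Holds.z rfl (Holds.x rfl (Holds.y rfl (check_sound hl q4B_c9) (check_sound hl q4B_c10)) (check_sound hl
    q4B_c11)) (check_sound hl q4B_c12))) (Holds.y rfl (Holds.z rfl (check_sound hl q4B_c13) (check_sound hl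
    q4B_c14)) (check_sound hl q4B_c15))) (check_sound hl q4B_c16)) (Holds.z rfl (Holds.x rfl (check_sound hl
    q4B_c17) (check_sound hl q4B_c18)) (check_sound hl q4B_c19))) (Holds.y rfl (check_sound hl q4B_c20)
    (check_sound hl q4B_c21))) (check_sound hl q4B_c22)) (Holds.z rfl (check_sound hl q4B_c23) (check_sound hl
    q4B_c24))) (check_sound hl q4B_c25)) (check_sound hl q4B_c26)) (check_sound hl q4B_c27)) (check_sound hl
    q4B_c28)) (check_sound hl q4B_c29)) (check_sound hl q4B_c30)) (check_sound hl q4B_c31)) (check_sound hl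
    q4B_c32)) (check_sound hl q4B_c33)) (check_sound hl q4B_c34)) (check_sound hl q4B_c35)) (check_sound hl
    q4B_c36)) (check_sound hl q4B_c37)) (check_sound hl q4B_c38)) (check_sound hl q4B_c39)) (check_sound hl
    q4B_c40))

theorem q4A_holds : Holds q4A true 4 ⟨0, 2, true⟩ ⟨0, 2, true⟩ ⟨0, 2, true⟩ :=
  have hl : 8 ≠ 0 → LocHolds q4A true 4 8 := (fun _ => locCheck_sound q4A_loc)
  (Holds.x rfl (Holds.y rfl (Holds.z rfl (Holds.x rfl (Holds.y rfl (Holds.z rfl (Holds.x rfl (Holds.y rfl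
    (Holds.z rfl (Holds.x rfl (Holds.y rfl (Holds.z rfl (Holds.x rfl (Holds.y rfl (Holds.z rfl (Holds.x rfl
    (Holds.y rfl (Holds.z rfl (Holds.x rfl (Holds.y rfl (Holds.z rfl (Holds.x rfl (check_sound hl q4A_c0)
    (check_sound hl q4A_c1)) (check_sound hl q4A_c2)) (check_sound hl q4A_c3)) (check_sound hl q4A_c4))
    (check_sound hl q4A_c5)) (check_sound hl q4A_c6)) (check_sound hl q4A_c7)) (check_sound hl q4A_c8))
    (check_sound hl q4A_c9)) (check_sound hl q4A_c10)) (check_sound hl q4A_c11)) (check_sound hl q4A_c12))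
    (check_sound hl q4A_c13)) (check_sound hl q4A_c14)) (check_sound hl q4A_c15)) (check_sound hl q4A_c16))
    (check_sound hl q4A_c17)) (check_sound hl q4A_c18)) (check_sound hl q4A_c19)) (check_sound hl q4A_c20))
    (check_sound hl q4A_c21)) (check_sound hl q4A_c22))

theorem q4C_holds : Holds q4C true 0 ⟨0, 2, true⟩ ⟨0, 2, true⟩ ⟨0, 2, true⟩ :=
  have hl : 0 ≠ 0 → LocHolds q4C true 0 0 := (fun h => absurd rfl h)
  (check_sound hl q4C_c0)

theorem q3B_holds : Holds q3B false 4 ⟨0, 2, true⟩ ⟨0, 2, true⟩ ⟨0, 16, false⟩ :=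
  have hl : 6 ≠ 0 → LocHolds q3B false 4 6 := (fun _ => locCheck_sound q3B_loc)
  (check_sound hl q3B_c0)

theorem q3A_holds : Holds q3A false 4 ⟨0, 2, true⟩ ⟨0, 2, true⟩ ⟨0, 16, false⟩ :=
  have hl : 6 ≠ 0 → LocHolds q3A false 4 6 := (fun _ => locCheck_sound q3A_loc)
  (check_sound hl q3A_c0)

theorem q3C_holds : Holds q3C false 0 ⟨0, 2, true⟩ ⟨0, 2, true⟩ ⟨0, 16, false⟩ :=
  have hl : 0 ≠ 0 → LocHolds q3C false 0 0 := (fun h => absurd rfl h)
  (check_sound hl q3C_c0)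

theorem gG_holds : Holds gG false 4 ⟨0, 2, true⟩ ⟨0, 2, true⟩ ⟨0, 16, false⟩ :=
  have hl : 8 ≠ 0 → LocHolds gG false 4 8 := (fun _ => locCheck_sound gG_loc)
  (check_sound hl gG_c0)

theorem gQ_holds : Holds gQ false 4 ⟨0, 2, true⟩ ⟨0, 2, true⟩ ⟨0, 16, false⟩ :=
  have hl : 8 ≠ 0 → LocHolds gQ false 4 8 := (fun _ => locCheck_sound gQ_loc)
  (check_sound hl gQ_c0)

theorem gQC_holds : Holds gQC false 4 ⟨0, 2, true⟩ ⟨0, 2, true⟩ ⟨0, 16, false⟩ :=
  have hl : 8 ≠ 0 → LocHolds gQC false 4 8 := (fun _ => locCheck_sound gQC_loc)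
  (check_sound hl gQC_c0)

theorem gH_holds : Holds gH false 4 ⟨0, 2, true⟩ ⟨0, 2, true⟩ ⟨0, 16, false⟩ :=
  have hl : 8 ≠ 0 → LocHolds gH false 4 8 := (fun _ => locCheck_sound gH_loc)
  (check_sound hl gH_c0)

theorem gC1_holds : Holds gC1 false 4 ⟨0, 2, true⟩ ⟨0, 2, true⟩ ⟨0, 16, false⟩ :=
  have hl : 8 ≠ 0 → LocHolds gC1 false 4 8 := (fun _ => locCheck_sound gC1_loc)
  (check_sound hl gC1_c0)

theorem gC2_holds : Holds gC2 false 4 ⟨0, 2, true⟩ ⟨0, 2, true⟩ ⟨0, 16, false⟩ :=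
  have hl : 8 ≠ 0 → LocHolds gC2 false 4 8 := (fun _ => locCheck_sound gC2_loc)
  (check_sound hl gC2_c0)

theorem gC3_holds : Holds gC3 false 4 ⟨0, 2, true⟩ ⟨0, 2, true⟩ ⟨0, 16, false⟩ :=
  have hl : 8 ≠ 0 → LocHolds gC3 false 4 8 := (fun _ => locCheck_sound gC3_loc)
  (check_sound hl gC3_c0)

theorem gC4_holds : Holds gC4 false 4 ⟨0, 2, true⟩ ⟨0, 2, true⟩ ⟨0, 16, false⟩ :=
  have hl : 8 ≠ 0 → LocHolds gC4 false 4 8 := (fun _ => locCheck_sound gC4_loc)
  (check_sound hl gC4_c0)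

theorem certE2 : CertE2 :=
  ⟨q4B_holds, q4A_holds, q4C_holds, q3B_holds, q3A_holds, q3C_holds, gG_holds, gQ_holds, gQC_holds, gH_holds, gC1_holds, gC2_holds, gC3_holds, gC4_holds, q4B_van, q4H_van⟩

end Crest.Agent.R163.E2
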