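import Crest.Agent.R163.E2.Defs

/-! # R163/E2/Inst: the exponential sums (generated) -/

set_option autoImplicit false

namespace Crest.Agent.R163.E2

def q4B : Inst := ⟨13, [
  ⟨false, false, false, ⟨0, 0⟩, ⟨0, 0⟩, ⟨0, 0⟩, [
    ⟨16, 16, 16, ⟨-124956, 0⟩, ⟨0, 0⟩⟩,
    ⟨0, 16, 16, ⟨13884, 0⟩, ⟨0, 0⟩⟩,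
    ⟨0, 0, 16, ⟨13884, 0⟩, ⟨0, 0⟩⟩,
    ⟨0, 0, 0, ⟨13884, 0⟩, ⟨0, 0⟩⟩,
    ⟨32, 16, 16, ⟨-124956, 0⟩, ⟨0, 0⟩⟩,
    ⟨16, 0, 16, ⟨27768, 0⟩, ⟨0, 0⟩⟩,
    ⟨16, 0, 0, ⟨27768, 0⟩, ⟨0, 0⟩⟩,
    ⟨32, 32, 16, ⟨-124956, 0⟩, ⟨0, 0⟩⟩,
    ⟨16, 32, 16, ⟨27768, 0⟩, ⟨0, 0⟩⟩,
    ⟨16, 16, 0, ⟨27768, 0⟩, ⟨0, 0⟩⟩,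
    ⟨32, 32, 32, ⟨-124956, 0⟩, ⟨0, 0⟩⟩,
    ⟨16, 32, 32, ⟨27768, 0⟩, ⟨0, 0⟩⟩,
    ⟨16, 16, 32, ⟨27768, 0⟩, ⟨0, 0⟩⟩,
    ⟨48, 16, 16, ⟨13884, 0⟩, ⟨0, 0⟩⟩,
    ⟨32, 0, 16, ⟨13884, 0⟩, ⟨0, 0⟩⟩,
    ⟨32, 0, 0, ⟨13884, 0⟩, ⟨0, 0⟩⟩,
    ⟨48, 32, 16, ⟨27768, 0⟩, ⟨0, 0⟩⟩,
    ⟨32, 16, 0, ⟨27768, 0⟩, ⟨0, 0⟩⟩,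
    ⟨48, 32, 32, ⟨27768, 0⟩, ⟨0, 0⟩⟩,
    ⟨32, 16, 32, ⟨27768, 0⟩, ⟨0, 0⟩⟩,
    ⟨48, 48, 16, ⟨13884, 0⟩, ⟨0, 0⟩⟩,
    ⟨32, 48, 16, ⟨13884, 0⟩, ⟨0, 0⟩⟩,
    ⟨32, 32, 0, ⟨13884, 0⟩, ⟨0, 0⟩⟩,
    ⟨48, 48, 32, ⟨27768, 0⟩, ⟨0, 0⟩⟩,
    ⟨32, 48, 32, ⟨27768, 0⟩, ⟨0, 0⟩⟩,
    ⟨48, 48, 48, ⟨13884, 0⟩, ⟨0, 0⟩⟩,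
    ⟨32, 48, 48, ⟨13884, 0⟩, ⟨0, 0⟩⟩,
    ⟨32, 32, 48, ⟨13884, 0⟩, ⟨0, 0⟩⟩]⟩,
  ⟨false, false, false, ⟨13884, 0⟩, ⟨9256, 0⟩, ⟨4628, 0⟩, [
    ⟨16, 16, 16, ⟨0, 0⟩, ⟨-192, 0⟩⟩]⟩,
  ⟨false, false, false, ⟨-4628, 0⟩, ⟨9256, 0⟩, ⟨4628, 0⟩, [
    ⟨32, 16, 16, ⟨0, 0⟩, ⟨-192, 0⟩⟩]⟩,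
  ⟨false, false, false, ⟨-4628, 0⟩, ⟨-9256, 0⟩, ⟨4628, 0⟩, [
    ⟨32, 32, 16, ⟨0, 0⟩, ⟨-192, 0⟩⟩]⟩,
  ⟨false, false, false, ⟨-4628, 0⟩, ⟨-9256, 0⟩, ⟨-13884, 0⟩, [
    ⟨32, 32, 32, ⟨0, 0⟩, ⟨-192, 0⟩⟩]⟩,
  ⟨true, false, false, ⟨-4992, 3072⟩, ⟨-9984, 0⟩, ⟨8320, 0⟩, [
    ⟨28, 24, 17, ⟨0, 0⟩, ⟨-80, 0⟩⟩,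
    ⟨44, 24, 17, ⟨4992, -3072⟩, ⟨-4, -13⟩⟩,
    ⟨44, 40, 17, ⟨4992, -3072⟩, ⟨-4, -13⟩⟩,
    ⟨44, 40, 33, ⟨4992, -3072⟩, ⟨-4, -13⟩⟩,
    ⟨12, 24, 17, ⟨4992, 3072⟩, ⟨-4, 13⟩⟩,
    ⟨28, 40, 17, ⟨4992, 3072⟩, ⟨-4, 13⟩⟩,
    ⟨28, 40, 33, ⟨4992, 3072⟩, ⟨-4, 13⟩⟩,
    ⟨12, 8, 17, ⟨-18304, 0⟩, ⟨-7, 0⟩⟩,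
    ⟨28, 8, 17, ⟨-18304, 0⟩, ⟨-7, 0⟩⟩,
    ⟨28, 24, 33, ⟨-18304, 0⟩, ⟨-7, 0⟩⟩,
    ⟨12, 8, 1, ⟨8320, 0⟩, ⟨-1, 0⟩⟩,
    ⟨28, 8, 1, ⟨8320, 0⟩, ⟨-1, 0⟩⟩,
    ⟨28, 24, 1, ⟨8320, 0⟩, ⟨-1, 0⟩⟩]⟩,
  ⟨true, false, false, ⟨-4992, 3072⟩, ⟨-9984, 0⟩, ⟨-18304, 0⟩, [
    ⟨28, 24, 23, ⟨0, 0⟩, ⟨-80, 0⟩⟩,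
    ⟨44, 24, 23, ⟨4992, -3072⟩, ⟨-4, -13⟩⟩,
    ⟨44, 40, 23, ⟨4992, -3072⟩, ⟨-4, -13⟩⟩,
    ⟨44, 40, 39, ⟨4992, -3072⟩, ⟨-4, -13⟩⟩,
    ⟨12, 24, 23, ⟨4992, 3072⟩, ⟨-4, 13⟩⟩,
    ⟨28, 40, 23, ⟨4992, 3072⟩, ⟨-4, 13⟩⟩,
    ⟨28, 40, 39, ⟨4992, 3072⟩, ⟨-4, 13⟩⟩,
    ⟨12, 8, 7, ⟨-18304, 0⟩, ⟨-7, 0⟩⟩,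
    ⟨28, 8, 7, ⟨-18304, 0⟩, ⟨-7, 0⟩⟩,
    ⟨28, 24, 7, ⟨-18304, 0⟩, ⟨-7, 0⟩⟩,
    ⟨12, 8, 23, ⟨8320, 0⟩, ⟨-1, 0⟩⟩,
    ⟨28, 8, 23, ⟨8320, 0⟩, ⟨-1, 0⟩⟩,
    ⟨28, 24, 39, ⟨8320, 0⟩, ⟨-1, 0⟩⟩]⟩,
  ⟨true, true, false, ⟨-4992, 3072⟩, ⟨13312, 3072⟩, ⟨8320, 0⟩, [
    ⟨28, 21, 17, ⟨0, 0⟩, ⟨-80, 0⟩⟩,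
    ⟨44, 21, 17, ⟨4992, -3072⟩, ⟨-4, -13⟩⟩,
    ⟨44, 37, 17, ⟨4992, -3072⟩, ⟨-4, -13⟩⟩,
    ⟨44, 37, 33, ⟨4992, -3072⟩, ⟨-4, -13⟩⟩,
    ⟨12, 5, 17, ⟨4992, 3072⟩, ⟨-4, 13⟩⟩,
    ⟨28, 5, 17, ⟨4992, 3072⟩, ⟨-4, 13⟩⟩,
    ⟨28, 21, 33, ⟨4992, 3072⟩, ⟨-4, 13⟩⟩,
    ⟨12, 21, 17, ⟨-18304, 0⟩, ⟨-7, 0⟩⟩,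
    ⟨28, 37, 17, ⟨-18304, 0⟩, ⟨-7, 0⟩⟩,
    ⟨28, 37, 33, ⟨-18304, 0⟩, ⟨-7, 0⟩⟩,
    ⟨12, 5, 1, ⟨8320, 0⟩, ⟨-1, 0⟩⟩,
    ⟨28, 5, 1, ⟨8320, 0⟩, ⟨-1, 0⟩⟩,
    ⟨28, 21, 1, ⟨8320, 0⟩, ⟨-1, 0⟩⟩]⟩,
  ⟨true, true, false, ⟨-4992, 3072⟩, ⟨-13312, 3072⟩, ⟨-18304, 0⟩, [
    ⟨28, 27, 23, ⟨0, 0⟩, ⟨-80, 0⟩⟩,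
    ⟨44, 27, 23, ⟨4992, -3072⟩, ⟨-4, -13⟩⟩,
    ⟨44, 43, 23, ⟨4992, -3072⟩, ⟨-4, -13⟩⟩,
    ⟨44, 43, 39, ⟨4992, -3072⟩, ⟨-4, -13⟩⟩,
    ⟨12, 11, 23, ⟨4992, 3072⟩, ⟨-4, 13⟩⟩,
    ⟨28, 11, 23, ⟨4992, 3072⟩, ⟨-4, 13⟩⟩,
    ⟨28, 27, 39, ⟨4992, 3072⟩, ⟨-4, 13⟩⟩,
    ⟨12, 11, 7, ⟨-18304, 0⟩, ⟨-7, 0⟩⟩,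
    ⟨28, 11, 7, ⟨-18304, 0⟩, ⟨-7, 0⟩⟩,
    ⟨28, 27, 7, ⟨-18304, 0⟩, ⟨-7, 0⟩⟩,
    ⟨12, 27, 23, ⟨8320, 0⟩, ⟨-1, 0⟩⟩,
    ⟨28, 43, 23, ⟨8320, 0⟩, ⟨-1, 0⟩⟩,
    ⟨28, 43, 39, ⟨8320, 0⟩, ⟨-1, 0⟩⟩]⟩,
  ⟨true, true, true, ⟨-4992, 3072⟩, ⟨13312, 3072⟩, ⟨4992, 3072⟩, [
    ⟨28, 21, 20, ⟨0, 0⟩, ⟨-80, 0⟩⟩,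
    ⟨44, 21, 20, ⟨4992, -3072⟩, ⟨-4, -13⟩⟩,
    ⟨44, 37, 20, ⟨4992, -3072⟩, ⟨-4, -13⟩⟩,
    ⟨44, 37, 36, ⟨4992, -3072⟩, ⟨-4, -13⟩⟩,
    ⟨12, 5, 4, ⟨4992, 3072⟩, ⟨-4, 13⟩⟩,
    ⟨28, 5, 4, ⟨4992, 3072⟩, ⟨-4, 13⟩⟩,
    ⟨28, 21, 4, ⟨4992, 3072⟩, ⟨-4, 13⟩⟩,
    ⟨12, 21, 20, ⟨-18304, 0⟩, ⟨-7, 0⟩⟩,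
    ⟨28, 37, 20, ⟨-18304, 0⟩, ⟨-7, 0⟩⟩,
    ⟨28, 37, 36, ⟨-18304, 0⟩, ⟨-7, 0⟩⟩,
    ⟨12, 5, 20, ⟨8320, 0⟩, ⟨-1, 0⟩⟩,
    ⟨28, 5, 20, ⟨8320, 0⟩, ⟨-1, 0⟩⟩,
    ⟨28, 21, 36, ⟨8320, 0⟩, ⟨-1, 0⟩⟩]⟩,
  ⟨true, true, true, ⟨-4992, 3072⟩, ⟨-13312, 3072⟩, ⟨4992, 3072⟩, [
    ⟨28, 27, 20, ⟨0, 0⟩, ⟨-80, 0⟩⟩,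
    ⟨44, 27, 20, ⟨4992, -3072⟩, ⟨-4, -13⟩⟩,
    ⟨44, 43, 20, ⟨4992, -3072⟩, ⟨-4, -13⟩⟩,
    ⟨44, 43, 36, ⟨4992, -3072⟩, ⟨-4, -13⟩⟩,
    ⟨12, 11, 4, ⟨4992, 3072⟩, ⟨-4, 13⟩⟩,
    ⟨28, 11, 4, ⟨4992, 3072⟩, ⟨-4, 13⟩⟩,
    ⟨28, 27, 4, ⟨4992, 3072⟩, ⟨-4, 13⟩⟩,
    ⟨12, 11, 20, ⟨-18304, 0⟩, ⟨-7, 0⟩⟩,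
    ⟨28, 11, 20, ⟨-18304, 0⟩, ⟨-7, 0⟩⟩,
    ⟨28, 27, 36, ⟨-18304, 0⟩, ⟨-7, 0⟩⟩,
    ⟨12, 27, 20, ⟨8320, 0⟩, ⟨-1, 0⟩⟩,
    ⟨28, 43, 20, ⟨8320, 0⟩, ⟨-1, 0⟩⟩,
    ⟨28, 43, 36, ⟨8320, 0⟩, ⟨-1, 0⟩⟩]⟩,
  ⟨false, true, false, ⟨18304, 0⟩, ⟨13312, 3072⟩, ⟨8320, 0⟩, [
    ⟨25, 21, 17, ⟨0, 0⟩, ⟨-80, 0⟩⟩,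
    ⟨9, 21, 17, ⟨4992, -3072⟩, ⟨-4, -13⟩⟩,
    ⟨25, 37, 17, ⟨4992, -3072⟩, ⟨-4, -13⟩⟩,
    ⟨25, 37, 33, ⟨4992, -3072⟩, ⟨-4, -13⟩⟩,
    ⟨9, 5, 17, ⟨4992, 3072⟩, ⟨-4, 13⟩⟩,
    ⟨25, 5, 17, ⟨4992, 3072⟩, ⟨-4, 13⟩⟩,
    ⟨25, 21, 33, ⟨4992, 3072⟩, ⟨-4, 13⟩⟩,
    ⟨41, 21, 17, ⟨-18304, 0⟩, ⟨-7, 0⟩⟩,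
    ⟨41, 37, 17, ⟨-18304, 0⟩, ⟨-7, 0⟩⟩,
    ⟨41, 37, 33, ⟨-18304, 0⟩, ⟨-7, 0⟩⟩,
    ⟨9, 5, 1, ⟨8320, 0⟩, ⟨-1, 0⟩⟩,
    ⟨25, 5, 1, ⟨8320, 0⟩, ⟨-1, 0⟩⟩,
    ⟨25, 21, 1, ⟨8320, 0⟩, ⟨-1, 0⟩⟩]⟩,
  ⟨false, true, false, ⟨-8320, 0⟩, ⟨-13312, 3072⟩, ⟨-18304, 0⟩, [
    ⟨31, 27, 23, ⟨0, 0⟩, ⟨-80, 0⟩⟩,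
    ⟨15, 27, 23, ⟨4992, -3072⟩, ⟨-4, -13⟩⟩,
    ⟨31, 43, 23, ⟨4992, -3072⟩, ⟨-4, -13⟩⟩,
    ⟨31, 43, 39, ⟨4992, -3072⟩, ⟨-4, -13⟩⟩,
    ⟨15, 11, 23, ⟨4992, 3072⟩, ⟨-4, 13⟩⟩,
    ⟨31, 11, 23, ⟨4992, 3072⟩, ⟨-4, 13⟩⟩,
    ⟨31, 27, 39, ⟨4992, 3072⟩, ⟨-4, 13⟩⟩,
    ⟨15, 11, 7, ⟨-18304, 0⟩, ⟨-7, 0⟩⟩,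
    ⟨31, 11, 7, ⟨-18304, 0⟩, ⟨-7, 0⟩⟩,
    ⟨31, 27, 7, ⟨-18304, 0⟩, ⟨-7, 0⟩⟩,
    ⟨47, 27, 23, ⟨8320, 0⟩, ⟨-1, 0⟩⟩,
    ⟨47, 43, 23, ⟨8320, 0⟩, ⟨-1, 0⟩⟩,
    ⟨47, 43, 39, ⟨8320, 0⟩, ⟨-1, 0⟩⟩]⟩,
  ⟨false, true, true, ⟨18304, 0⟩, ⟨13312, 3072⟩, ⟨4992, 3072⟩, [
    ⟨25, 21, 20, ⟨0, 0⟩, ⟨-80, 0⟩⟩,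
    ⟨9, 21, 20, ⟨4992, -3072⟩, ⟨-4, -13⟩⟩,
    ⟨25, 37, 20, ⟨4992, -3072⟩, ⟨-4, -13⟩⟩,
    ⟨25, 37, 36, ⟨4992, -3072⟩, ⟨-4, -13⟩⟩,
    ⟨9, 5, 4, ⟨4992, 3072⟩, ⟨-4, 13⟩⟩,
    ⟨25, 5, 4, ⟨4992, 3072⟩, ⟨-4, 13⟩⟩,
    ⟨25, 21, 4, ⟨4992, 3072⟩, ⟨-4, 13⟩⟩,
    ⟨41, 21, 20, ⟨-18304, 0⟩, ⟨-7, 0⟩⟩,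
    ⟨41, 37, 20, ⟨-18304, 0⟩, ⟨-7, 0⟩⟩,
    ⟨41, 37, 36, ⟨-18304, 0⟩, ⟨-7, 0⟩⟩,
    ⟨9, 5, 20, ⟨8320, 0⟩, ⟨-1, 0⟩⟩,
    ⟨25, 5, 20, ⟨8320, 0⟩, ⟨-1, 0⟩⟩,
    ⟨25, 21, 36, ⟨8320, 0⟩, ⟨-1, 0⟩⟩]⟩,
  ⟨false, true, true, ⟨-8320, 0⟩, ⟨-13312, 3072⟩, ⟨4992, 3072⟩, [
    ⟨31, 27, 20, ⟨0, 0⟩, ⟨-80, 0⟩⟩,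
    ⟨15, 27, 20, ⟨4992, -3072⟩, ⟨-4, -13⟩⟩,
    ⟨31, 43, 20, ⟨4992, -3072⟩, ⟨-4, -13⟩⟩,
    ⟨31, 43, 36, ⟨4992, -3072⟩, ⟨-4, -13⟩⟩,
    ⟨15, 11, 4, ⟨4992, 3072⟩, ⟨-4, 13⟩⟩,
    ⟨31, 11, 4, ⟨4992, 3072⟩, ⟨-4, 13⟩⟩,
    ⟨31, 27, 4, ⟨4992, 3072⟩, ⟨-4, 13⟩⟩,
    ⟨15, 11, 20, ⟨-18304, 0⟩, ⟨-7, 0⟩⟩,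
    ⟨31, 11, 20, ⟨-18304, 0⟩, ⟨-7, 0⟩⟩,
    ⟨31, 27, 36, ⟨-18304, 0⟩, ⟨-7, 0⟩⟩,
    ⟨47, 27, 20, ⟨8320, 0⟩, ⟨-1, 0⟩⟩,
    ⟨47, 43, 20, ⟨8320, 0⟩, ⟨-1, 0⟩⟩,
    ⟨47, 43, 36, ⟨8320, 0⟩, ⟨-1, 0⟩⟩]⟩,
  ⟨false, false, true, ⟨18304, 0⟩, ⟨9984, 0⟩, ⟨4992, 3072⟩, [
    ⟨25, 24, 20, ⟨0, 0⟩, ⟨-80, 0⟩⟩,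
    ⟨9, 8, 20, ⟨4992, -3072⟩, ⟨-4, -13⟩⟩,
    ⟨25, 8, 20, ⟨4992, -3072⟩, ⟨-4, -13⟩⟩,
    ⟨25, 24, 36, ⟨4992, -3072⟩, ⟨-4, -13⟩⟩,
    ⟨9, 8, 4, ⟨4992, 3072⟩, ⟨-4, 13⟩⟩,
    ⟨25, 8, 4, ⟨4992, 3072⟩, ⟨-4, 13⟩⟩,
    ⟨25, 24, 4, ⟨4992, 3072⟩, ⟨-4, 13⟩⟩,
    ⟨41, 24, 20, ⟨-18304, 0⟩, ⟨-7, 0⟩⟩,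
    ⟨41, 40, 20, ⟨-18304, 0⟩, ⟨-7, 0⟩⟩,
    ⟨41, 40, 36, ⟨-18304, 0⟩, ⟨-7, 0⟩⟩,
    ⟨9, 24, 20, ⟨8320, 0⟩, ⟨-1, 0⟩⟩,
    ⟨25, 40, 20, ⟨8320, 0⟩, ⟨-1, 0⟩⟩,
    ⟨25, 40, 36, ⟨8320, 0⟩, ⟨-1, 0⟩⟩]⟩,
  ⟨false, false, true, ⟨-8320, 0⟩, ⟨9984, 0⟩, ⟨4992, 3072⟩, [
    ⟨31, 24, 20, ⟨0, 0⟩, ⟨-80, 0⟩⟩,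
    ⟨15, 8, 20, ⟨4992, -3072⟩, ⟨-4, -13⟩⟩,
    ⟨31, 8, 20, ⟨4992, -3072⟩, ⟨-4, -13⟩⟩,
    ⟨31, 24, 36, ⟨4992, -3072⟩, ⟨-4, -13⟩⟩,
    ⟨15, 8, 4, ⟨4992, 3072⟩, ⟨-4, 13⟩⟩,
    ⟨31, 8, 4, ⟨4992, 3072⟩, ⟨-4, 13⟩⟩,
    ⟨31, 24, 4, ⟨4992, 3072⟩, ⟨-4, 13⟩⟩,
    ⟨15, 24, 20, ⟨-18304, 0⟩, ⟨-7, 0⟩⟩,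
    ⟨31, 40, 20, ⟨-18304, 0⟩, ⟨-7, 0⟩⟩,
    ⟨31, 40, 36, ⟨-18304, 0⟩, ⟨-7, 0⟩⟩,
    ⟨47, 24, 20, ⟨8320, 0⟩, ⟨-1, 0⟩⟩,
    ⟨47, 40, 20, ⟨8320, 0⟩, ⟨-1, 0⟩⟩,
    ⟨47, 40, 36, ⟨8320, 0⟩, ⟨-1, 0⟩⟩]⟩],
  0, []⟩

def q4A : Inst := ⟨13, [
  ⟨false, false, false, ⟨0, 0⟩, ⟨0, 0⟩, ⟨0, 0⟩, [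
    ⟨16, 16, 16, ⟨-1249560, 0⟩, ⟨0, 0⟩⟩,
    ⟨0, 16, 16, ⟨138840, 0⟩, ⟨0, 0⟩⟩,
    ⟨0, 0, 16, ⟨138840, 0⟩, ⟨0, 0⟩⟩,
    ⟨0, 0, 0, ⟨138840, 0⟩, ⟨0, 0⟩⟩,
    ⟨32, 16, 16, ⟨-1249560, 0⟩, ⟨0, 0⟩⟩,
    ⟨16, 0, 16, ⟨277680, 0⟩, ⟨0, 0⟩⟩,
    ⟨16, 0, 0, ⟨277680, 0⟩, ⟨0, 0⟩⟩,
    ⟨32, 32, 16, ⟨-1249560, 0⟩, ⟨0, 0⟩⟩,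
    ⟨16, 32, 16, ⟨277680, 0⟩, ⟨0, 0⟩⟩,
    ⟨16, 16, 0, ⟨277680, 0⟩, ⟨0, 0⟩⟩,
    ⟨32, 32, 32, ⟨-1249560, 0⟩, ⟨0, 0⟩⟩,
    ⟨16, 32, 32, ⟨277680, 0⟩, ⟨0, 0⟩⟩,
    ⟨16, 16, 32, ⟨277680, 0⟩, ⟨0, 0⟩⟩,
    ⟨48, 16, 16, ⟨138840, 0⟩, ⟨0, 0⟩⟩,
    ⟨32, 0, 16, ⟨138840, 0⟩, ⟨0, 0⟩⟩,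
    ⟨32, 0, 0, ⟨138840, 0⟩, ⟨0, 0⟩⟩,
    ⟨48, 32, 16, ⟨277680, 0⟩, ⟨0, 0⟩⟩,
    ⟨32, 16, 0, ⟨277680, 0⟩, ⟨0, 0⟩⟩,
    ⟨48, 32, 32, ⟨277680, 0⟩, ⟨0, 0⟩⟩,
    ⟨32, 16, 32, ⟨277680, 0⟩, ⟨0, 0⟩⟩,
    ⟨48, 48, 16, ⟨138840, 0⟩, ⟨0, 0⟩⟩,
    ⟨32, 48, 16, ⟨138840, 0⟩, ⟨0, 0⟩⟩,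
    ⟨32, 32, 0, ⟨138840, 0⟩, ⟨0, 0⟩⟩,
    ⟨48, 48, 32, ⟨277680, 0⟩, ⟨0, 0⟩⟩,
    ⟨32, 48, 32, ⟨277680, 0⟩, ⟨0, 0⟩⟩,
    ⟨48, 48, 48, ⟨138840, 0⟩, ⟨0, 0⟩⟩,
    ⟨32, 48, 48, ⟨138840, 0⟩, ⟨0, 0⟩⟩,
    ⟨32, 32, 48, ⟨138840, 0⟩, ⟨0, 0⟩⟩]⟩,
  ⟨false, false, false, ⟨13884, 0⟩, ⟨9256, 0⟩, ⟨4628, 0⟩, [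
    ⟨16, 16, 16, ⟨0, 0⟩, ⟨-1920, 0⟩⟩]⟩,
  ⟨false, false, false, ⟨-4628, 0⟩, ⟨9256, 0⟩, ⟨4628, 0⟩, [
    ⟨32, 16, 16, ⟨0, 0⟩, ⟨-1920, 0⟩⟩]⟩,
  ⟨false, false, false, ⟨-4628, 0⟩, ⟨-9256, 0⟩, ⟨4628, 0⟩, [
    ⟨32, 32, 16, ⟨0, 0⟩, ⟨-1920, 0⟩⟩]⟩,
  ⟨false, false, false, ⟨-4628, 0⟩, ⟨-9256, 0⟩, ⟨-13884, 0⟩, [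
    ⟨32, 32, 32, ⟨0, 0⟩, ⟨-1920, 0⟩⟩]⟩,
  ⟨true, false, false, ⟨-4992, 3072⟩, ⟨-9984, 0⟩, ⟨8320, 0⟩, [
    ⟨28, 24, 17, ⟨0, 0⟩, ⟨1072, 0⟩⟩,
    ⟨44, 24, 17, ⟨-14976, 9216⟩, ⟨12, 39⟩⟩,
    ⟨44, 40, 17, ⟨-14976, 9216⟩, ⟨12, 39⟩⟩,
    ⟨44, 40, 33, ⟨-14976, 9216⟩, ⟨12, 39⟩⟩,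
    ⟨12, 24, 17, ⟨-14976, -9216⟩, ⟨12, -39⟩⟩,
    ⟨28, 40, 17, ⟨-14976, -9216⟩, ⟨12, -39⟩⟩,
    ⟨28, 40, 33, ⟨-14976, -9216⟩, ⟨12, -39⟩⟩,
    ⟨12, 8, 17, ⟨54912, 0⟩, ⟨21, 0⟩⟩,
    ⟨28, 8, 17, ⟨54912, 0⟩, ⟨21, 0⟩⟩,
    ⟨28, 24, 33, ⟨54912, 0⟩, ⟨21, 0⟩⟩,
    ⟨12, 8, 1, ⟨-24960, 0⟩, ⟨3, 0⟩⟩,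
    ⟨28, 8, 1, ⟨-24960, 0⟩, ⟨3, 0⟩⟩,
    ⟨28, 24, 1, ⟨-24960, 0⟩, ⟨3, 0⟩⟩]⟩,
  ⟨true, false, false, ⟨-4992, 3072⟩, ⟨-9984, 0⟩, ⟨-18304, 0⟩, [
    ⟨28, 24, 23, ⟨0, 0⟩, ⟨1072, 0⟩⟩,
    ⟨44, 24, 23, ⟨-14976, 9216⟩, ⟨12, 39⟩⟩,
    ⟨44, 40, 23, ⟨-14976, 9216⟩, ⟨12, 39⟩⟩,
    ⟨44, 40, 39, ⟨-14976, 9216⟩, ⟨12, 39⟩⟩,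
    ⟨12, 24, 23, ⟨-14976, -9216⟩, ⟨12, -39⟩⟩,
    ⟨28, 40, 23, ⟨-14976, -9216⟩, ⟨12, -39⟩⟩,
    ⟨28, 40, 39, ⟨-14976, -9216⟩, ⟨12, -39⟩⟩,
    ⟨12, 8, 7, ⟨54912, 0⟩, ⟨21, 0⟩⟩,
    ⟨28, 8, 7, ⟨54912, 0⟩, ⟨21, 0⟩⟩,
    ⟨28, 24, 7, ⟨54912, 0⟩, ⟨21, 0⟩⟩,
    ⟨12, 8, 23, ⟨-24960, 0⟩, ⟨3, 0⟩⟩,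
    ⟨28, 8, 23, ⟨-24960, 0⟩, ⟨3, 0⟩⟩,
    ⟨28, 24, 39, ⟨-24960, 0⟩, ⟨3, 0⟩⟩]⟩,
  ⟨true, true, false, ⟨-4992, 3072⟩, ⟨13312, 3072⟩, ⟨8320, 0⟩, [
    ⟨28, 21, 17, ⟨0, 0⟩, ⟨1072, 0⟩⟩,
    ⟨44, 21, 17, ⟨-14976, 9216⟩, ⟨12, 39⟩⟩,
    ⟨44, 37, 17, ⟨-14976, 9216⟩, ⟨12, 39⟩⟩,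
    ⟨44, 37, 33, ⟨-14976, 9216⟩, ⟨12, 39⟩⟩,
    ⟨12, 5, 17, ⟨-14976, -9216⟩, ⟨12, -39⟩⟩,
    ⟨28, 5, 17, ⟨-14976, -9216⟩, ⟨12, -39⟩⟩,
    ⟨28, 21, 33, ⟨-14976, -9216⟩, ⟨12, -39⟩⟩,
    ⟨12, 21, 17, ⟨54912, 0⟩, ⟨21, 0⟩⟩,
    ⟨28, 37, 17, ⟨54912, 0⟩, ⟨21, 0⟩⟩,
    ⟨28, 37, 33, ⟨54912, 0⟩, ⟨21, 0⟩⟩,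
    ⟨12, 5, 1, ⟨-24960, 0⟩, ⟨3, 0⟩⟩,
    ⟨28, 5, 1, ⟨-24960, 0⟩, ⟨3, 0⟩⟩,
    ⟨28, 21, 1, ⟨-24960, 0⟩, ⟨3, 0⟩⟩]⟩,
  ⟨true, true, false, ⟨-4992, 3072⟩, ⟨-13312, 3072⟩, ⟨-18304, 0⟩, [
    ⟨28, 27, 23, ⟨0, 0⟩, ⟨1072, 0⟩⟩,
    ⟨44, 27, 23, ⟨-14976, 9216⟩, ⟨12, 39⟩⟩,
    ⟨44, 43, 23, ⟨-14976, 9216⟩, ⟨12, 39⟩⟩,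
    ⟨44, 43, 39, ⟨-14976, 9216⟩, ⟨12, 39⟩⟩,
    ⟨12, 11, 23, ⟨-14976, -9216⟩, ⟨12, -39⟩⟩,
    ⟨28, 11, 23, ⟨-14976, -9216⟩, ⟨12, -39⟩⟩,
    ⟨28, 27, 39, ⟨-14976, -9216⟩, ⟨12, -39⟩⟩,
    ⟨12, 11, 7, ⟨54912, 0⟩, ⟨21, 0⟩⟩,
    ⟨28, 11, 7, ⟨54912, 0⟩, ⟨21, 0⟩⟩,
    ⟨28, 27, 7, ⟨54912, 0⟩, ⟨21, 0⟩⟩,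
    ⟨12, 27, 23, ⟨-24960, 0⟩, ⟨3, 0⟩⟩,
    ⟨28, 43, 23, ⟨-24960, 0⟩, ⟨3, 0⟩⟩,
    ⟨28, 43, 39, ⟨-24960, 0⟩, ⟨3, 0⟩⟩]⟩,
  ⟨true, true, true, ⟨-4992, 3072⟩, ⟨13312, 3072⟩, ⟨4992, 3072⟩, [
    ⟨28, 21, 20, ⟨0, 0⟩, ⟨1072, 0⟩⟩,
    ⟨44, 21, 20, ⟨-14976, 9216⟩, ⟨12, 39⟩⟩,
    ⟨44, 37, 20, ⟨-14976, 9216⟩, ⟨12, 39⟩⟩,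
    ⟨44, 37, 36, ⟨-14976, 9216⟩, ⟨12, 39⟩⟩,
    ⟨12, 5, 4, ⟨-14976, -9216⟩, ⟨12, -39⟩⟩,
    ⟨28, 5, 4, ⟨-14976, -9216⟩, ⟨12, -39⟩⟩,
    ⟨28, 21, 4, ⟨-14976, -9216⟩, ⟨12, -39⟩⟩,
    ⟨12, 21, 20, ⟨54912, 0⟩, ⟨21, 0⟩⟩,
    ⟨28, 37, 20, ⟨54912, 0⟩, ⟨21, 0⟩⟩,
    ⟨28, 37, 36, ⟨54912, 0⟩, ⟨21, 0⟩⟩,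
    ⟨12, 5, 20, ⟨-24960, 0⟩, ⟨3, 0⟩⟩,
    ⟨28, 5, 20, ⟨-24960, 0⟩, ⟨3, 0⟩⟩,
    ⟨28, 21, 36, ⟨-24960, 0⟩, ⟨3, 0⟩⟩]⟩,
  ⟨true, true, true, ⟨-4992, 3072⟩, ⟨-13312, 3072⟩, ⟨4992, 3072⟩, [
    ⟨28, 27, 20, ⟨0, 0⟩, ⟨1072, 0⟩⟩,
    ⟨44, 27, 20, ⟨-14976, 9216⟩, ⟨12, 39⟩⟩,
    ⟨44, 43, 20, ⟨-14976, 9216⟩, ⟨12, 39⟩⟩,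
    ⟨44, 43, 36, ⟨-14976, 9216⟩, ⟨12, 39⟩⟩,
    ⟨12, 11, 4, ⟨-14976, -9216⟩, ⟨12, -39⟩⟩,
    ⟨28, 11, 4, ⟨-14976, -9216⟩, ⟨12, -39⟩⟩,
    ⟨28, 27, 4, ⟨-14976, -9216⟩, ⟨12, -39⟩⟩,
    ⟨12, 11, 20, ⟨54912, 0⟩, ⟨21, 0⟩⟩,
    ⟨28, 11, 20, ⟨54912, 0⟩, ⟨21, 0⟩⟩,
    ⟨28, 27, 36, ⟨54912, 0⟩, ⟨21, 0⟩⟩,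
    ⟨12, 27, 20, ⟨-24960, 0⟩, ⟨3, 0⟩⟩,
    ⟨28, 43, 20, ⟨-24960, 0⟩, ⟨3, 0⟩⟩,
    ⟨28, 43, 36, ⟨-24960, 0⟩, ⟨3, 0⟩⟩]⟩,
  ⟨false, true, false, ⟨18304, 0⟩, ⟨13312, 3072⟩, ⟨8320, 0⟩, [
    ⟨25, 21, 17, ⟨0, 0⟩, ⟨1072, 0⟩⟩,
    ⟨9, 21, 17, ⟨-14976, 9216⟩, ⟨12, 39⟩⟩,
    ⟨25, 37, 17, ⟨-14976, 9216⟩, ⟨12, 39⟩⟩,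
    ⟨25, 37, 33, ⟨-14976, 9216⟩, ⟨12, 39⟩⟩,
    ⟨9, 5, 17, ⟨-14976, -9216⟩, ⟨12, -39⟩⟩,
    ⟨25, 5, 17, ⟨-14976, -9216⟩, ⟨12, -39⟩⟩,
    ⟨25, 21, 33, ⟨-14976, -9216⟩, ⟨12, -39⟩⟩,
    ⟨41, 21, 17, ⟨54912, 0⟩, ⟨21, 0⟩⟩,
    ⟨41, 37, 17, ⟨54912, 0⟩, ⟨21, 0⟩⟩,
    ⟨41, 37, 33, ⟨54912, 0⟩, ⟨21, 0⟩⟩,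
    ⟨9, 5, 1, ⟨-24960, 0⟩, ⟨3, 0⟩⟩,
    ⟨25, 5, 1, ⟨-24960, 0⟩, ⟨3, 0⟩⟩,
    ⟨25, 21, 1, ⟨-24960, 0⟩, ⟨3, 0⟩⟩]⟩,
  ⟨false, true, false, ⟨-8320, 0⟩, ⟨-13312, 3072⟩, ⟨-18304, 0⟩, [
    ⟨31, 27, 23, ⟨0, 0⟩, ⟨1072, 0⟩⟩,
    ⟨15, 27, 23, ⟨-14976, 9216⟩, ⟨12, 39⟩⟩,
    ⟨31, 43, 23, ⟨-14976, 9216⟩, ⟨12, 39⟩⟩,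
    ⟨31, 43, 39, ⟨-14976, 9216⟩, ⟨12, 39⟩⟩,
    ⟨15, 11, 23, ⟨-14976, -9216⟩, ⟨12, -39⟩⟩,
    ⟨31, 11, 23, ⟨-14976, -9216⟩, ⟨12, -39⟩⟩,
    ⟨31, 27, 39, ⟨-14976, -9216⟩, ⟨12, -39⟩⟩,
    ⟨15, 11, 7, ⟨54912, 0⟩, ⟨21, 0⟩⟩,
    ⟨31, 11, 7, ⟨54912, 0⟩, ⟨21, 0⟩⟩,
    ⟨31, 27, 7, ⟨54912, 0⟩, ⟨21, 0⟩⟩,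
    ⟨47, 27, 23, ⟨-24960, 0⟩, ⟨3, 0⟩⟩,
    ⟨47, 43, 23, ⟨-24960, 0⟩, ⟨3, 0⟩⟩,
    ⟨47, 43, 39, ⟨-24960, 0⟩, ⟨3, 0⟩⟩]⟩,
  ⟨false, true, true, ⟨18304, 0⟩, ⟨13312, 3072⟩, ⟨4992, 3072⟩, [
    ⟨25, 21, 20, ⟨0, 0⟩, ⟨1072, 0⟩⟩,
    ⟨9, 21, 20, ⟨-14976, 9216⟩, ⟨12, 39⟩⟩,
    ⟨25, 37, 20, ⟨-14976, 9216⟩, ⟨12, 39⟩⟩,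
    ⟨25, 37, 36, ⟨-14976, 9216⟩, ⟨12, 39⟩⟩,
    ⟨9, 5, 4, ⟨-14976, -9216⟩, ⟨12, -39⟩⟩,
    ⟨25, 5, 4, ⟨-14976, -9216⟩, ⟨12, -39⟩⟩,
    ⟨25, 21, 4, ⟨-14976, -9216⟩, ⟨12, -39⟩⟩,
    ⟨41, 21, 20, ⟨54912, 0⟩, ⟨21, 0⟩⟩,
    ⟨41, 37, 20, ⟨54912, 0⟩, ⟨21, 0⟩⟩,
    ⟨41, 37, 36, ⟨54912, 0⟩, ⟨21, 0⟩⟩,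
    ⟨9, 5, 20, ⟨-24960, 0⟩, ⟨3, 0⟩⟩,
    ⟨25, 5, 20, ⟨-24960, 0⟩, ⟨3, 0⟩⟩,
    ⟨25, 21, 36, ⟨-24960, 0⟩, ⟨3, 0⟩⟩]⟩,
  ⟨false, true, true, ⟨-8320, 0⟩, ⟨-13312, 3072⟩, ⟨4992, 3072⟩, [
    ⟨31, 27, 20, ⟨0, 0⟩, ⟨1072, 0⟩⟩,
    ⟨15, 27, 20, ⟨-14976, 9216⟩, ⟨12, 39⟩⟩,
    ⟨31, 43, 20, ⟨-14976, 9216⟩, ⟨12, 39⟩⟩,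
    ⟨31, 43, 36, ⟨-14976, 9216⟩, ⟨12, 39⟩⟩,
    ⟨15, 11, 4, ⟨-14976, -9216⟩, ⟨12, -39⟩⟩,
    ⟨31, 11, 4, ⟨-14976, -9216⟩, ⟨12, -39⟩⟩,
    ⟨31, 27, 4, ⟨-14976, -9216⟩, ⟨12, -39⟩⟩,
    ⟨15, 11, 20, ⟨54912, 0⟩, ⟨21, 0⟩⟩,
    ⟨31, 11, 20, ⟨54912, 0⟩, ⟨21, 0⟩⟩,
    ⟨31, 27, 36, ⟨54912, 0⟩, ⟨21, 0⟩⟩,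
    ⟨47, 27, 20, ⟨-24960, 0⟩, ⟨3, 0⟩⟩,
    ⟨47, 43, 20, ⟨-24960, 0⟩, ⟨3, 0⟩⟩,
    ⟨47, 43, 36, ⟨-24960, 0⟩, ⟨3, 0⟩⟩]⟩,
  ⟨false, false, true, ⟨18304, 0⟩, ⟨9984, 0⟩, ⟨4992, 3072⟩, [
    ⟨25, 24, 20, ⟨0, 0⟩, ⟨1072, 0⟩⟩,
    ⟨9, 8, 20, ⟨-14976, 9216⟩, ⟨12, 39⟩⟩,
    ⟨25, 8, 20, ⟨-14976, 9216⟩, ⟨12, 39⟩⟩,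
    ⟨25, 24, 36, ⟨-14976, 9216⟩, ⟨12, 39⟩⟩,
    ⟨9, 8, 4, ⟨-14976, -9216⟩, ⟨12, -39⟩⟩,
    ⟨25, 8, 4, ⟨-14976, -9216⟩, ⟨12, -39⟩⟩,
    ⟨25, 24, 4, ⟨-14976, -9216⟩, ⟨12, -39⟩⟩,
    ⟨41, 24, 20, ⟨54912, 0⟩, ⟨21, 0⟩⟩,
    ⟨41, 40, 20, ⟨54912, 0⟩, ⟨21, 0⟩⟩,
    ⟨41, 40, 36, ⟨54912, 0⟩, ⟨21, 0⟩⟩,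
    ⟨9, 24, 20, ⟨-24960, 0⟩, ⟨3, 0⟩⟩,
    ⟨25, 40, 20, ⟨-24960, 0⟩, ⟨3, 0⟩⟩,
    ⟨25, 40, 36, ⟨-24960, 0⟩, ⟨3, 0⟩⟩]⟩,
  ⟨false, false, true, ⟨-8320, 0⟩, ⟨9984, 0⟩, ⟨4992, 3072⟩, [
    ⟨31, 24, 20, ⟨0, 0⟩, ⟨1072, 0⟩⟩,
    ⟨15, 8, 20, ⟨-14976, 9216⟩, ⟨12, 39⟩⟩,
    ⟨31, 8, 20, ⟨-14976, 9216⟩, ⟨12, 39⟩⟩,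
    ⟨31, 24, 36, ⟨-14976, 9216⟩, ⟨12, 39⟩⟩,
    ⟨15, 8, 4, ⟨-14976, -9216⟩, ⟨12, -39⟩⟩,
    ⟨31, 8, 4, ⟨-14976, -9216⟩, ⟨12, -39⟩⟩,
    ⟨31, 24, 4, ⟨-14976, -9216⟩, ⟨12, -39⟩⟩,
    ⟨15, 24, 20, ⟨54912, 0⟩, ⟨21, 0⟩⟩,
    ⟨31, 40, 20, ⟨54912, 0⟩, ⟨21, 0⟩⟩,
    ⟨31, 40, 36, ⟨54912, 0⟩, ⟨21, 0⟩⟩,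
    ⟨47, 24, 20, ⟨-24960, 0⟩, ⟨3, 0⟩⟩,
    ⟨47, 40, 20, ⟨-24960, 0⟩, ⟨3, 0⟩⟩,
    ⟨47, 40, 36, ⟨-24960, 0⟩, ⟨3, 0⟩⟩]⟩],
  0, []⟩

def q4C : Inst := ⟨13, [
  ⟨false, false, false, ⟨0, 0⟩, ⟨0, 0⟩, ⟨0, 0⟩, [
    ⟨0, 0, 0, ⟨9, 0⟩, ⟨0, 0⟩⟩,
    ⟨16, 0, 0, ⟨9, 0⟩, ⟨0, 0⟩⟩,
    ⟨16, 16, 0, ⟨9, 0⟩, ⟨0, 0⟩⟩,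
    ⟨16, 16, 16, ⟨9, 0⟩, ⟨0, 0⟩⟩]⟩,
  ⟨true, false, false, ⟨0, 0⟩, ⟨0, 0⟩, ⟨0, 0⟩, [
    ⟨12, 8, 1, ⟨10, 0⟩, ⟨0, 0⟩⟩,
    ⟨12, 8, 7, ⟨10, 0⟩, ⟨0, 0⟩⟩]⟩,
  ⟨true, true, false, ⟨0, 0⟩, ⟨0, 0⟩, ⟨0, 0⟩, [
    ⟨12, 5, 1, ⟨10, 0⟩, ⟨0, 0⟩⟩,
    ⟨12, 11, 7, ⟨10, 0⟩, ⟨0, 0⟩⟩]⟩,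
  ⟨true, true, true, ⟨0, 0⟩, ⟨0, 0⟩, ⟨0, 0⟩, [
    ⟨12, 5, 4, ⟨10, 0⟩, ⟨0, 0⟩⟩,
    ⟨12, 11, 4, ⟨10, 0⟩, ⟨0, 0⟩⟩]⟩,
  ⟨false, true, false, ⟨0, 0⟩, ⟨0, 0⟩, ⟨0, 0⟩, [
    ⟨9, 5, 1, ⟨10, 0⟩, ⟨0, 0⟩⟩,
    ⟨15, 11, 7, ⟨10, 0⟩, ⟨0, 0⟩⟩]⟩,
  ⟨false, true, true, ⟨0, 0⟩, ⟨0, 0⟩, ⟨0, 0⟩, [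
    ⟨9, 5, 4, ⟨10, 0⟩, ⟨0, 0⟩⟩,
    ⟨15, 11, 4, ⟨10, 0⟩, ⟨0, 0⟩⟩]⟩,
  ⟨false, false, true, ⟨0, 0⟩, ⟨0, 0⟩, ⟨0, 0⟩, [
    ⟨9, 8, 4, ⟨10, 0⟩, ⟨0, 0⟩⟩,
    ⟨15, 8, 4, ⟨10, 0⟩, ⟨0, 0⟩⟩]⟩],
  0, []⟩

def q4H : Inst := ⟨13, [
  ⟨true, false, false, ⟨-4992, 3072⟩, ⟨-9984, 0⟩, ⟨8320, 0⟩, [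
    ⟨12, 8, 1, ⟨0, 0⟩, ⟨1, 0⟩⟩,
    ⟨28, 8, 1, ⟨0, 0⟩, ⟨2, 0⟩⟩,
    ⟨28, 24, 1, ⟨0, 0⟩, ⟨2, 0⟩⟩,
    ⟨28, 24, 17, ⟨0, 0⟩, ⟨2, 0⟩⟩,
    ⟨44, 8, 1, ⟨0, 0⟩, ⟨1, 0⟩⟩,
    ⟨44, 24, 1, ⟨0, 0⟩, ⟨2, 0⟩⟩,
    ⟨44, 24, 17, ⟨0, 0⟩, ⟨2, 0⟩⟩,
    ⟨44, 40, 1, ⟨0, 0⟩, ⟨1, 0⟩⟩,
    ⟨44, 40, 17, ⟨0, 0⟩, ⟨2, 0⟩⟩,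
    ⟨44, 40, 33, ⟨0, 0⟩, ⟨1, 0⟩⟩]⟩,
  ⟨true, false, false, ⟨-4992, 3072⟩, ⟨-9984, 0⟩, ⟨-18304, 0⟩, [
    ⟨12, 8, 7, ⟨0, 0⟩, ⟨1, 0⟩⟩,
    ⟨28, 8, 7, ⟨0, 0⟩, ⟨2, 0⟩⟩,
    ⟨28, 24, 7, ⟨0, 0⟩, ⟨2, 0⟩⟩,
    ⟨28, 24, 23, ⟨0, 0⟩, ⟨2, 0⟩⟩,
    ⟨44, 8, 7, ⟨0, 0⟩, ⟨1, 0⟩⟩,
    ⟨44, 24, 7, ⟨0, 0⟩, ⟨2, 0⟩⟩,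
    ⟨44, 24, 23, ⟨0, 0⟩, ⟨2, 0⟩⟩,
    ⟨44, 40, 7, ⟨0, 0⟩, ⟨1, 0⟩⟩,
    ⟨44, 40, 23, ⟨0, 0⟩, ⟨2, 0⟩⟩,
    ⟨44, 40, 39, ⟨0, 0⟩, ⟨1, 0⟩⟩]⟩,
  ⟨true, true, false, ⟨-4992, 3072⟩, ⟨13312, 3072⟩, ⟨8320, 0⟩, [
    ⟨12, 5, 1, ⟨0, 0⟩, ⟨1, 0⟩⟩,
    ⟨28, 5, 1, ⟨0, 0⟩, ⟨2, 0⟩⟩,
    ⟨28, 21, 1, ⟨0, 0⟩, ⟨2, 0⟩⟩,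
    ⟨28, 21, 17, ⟨0, 0⟩, ⟨2, 0⟩⟩,
    ⟨44, 5, 1, ⟨0, 0⟩, ⟨1, 0⟩⟩,
    ⟨44, 21, 1, ⟨0, 0⟩, ⟨2, 0⟩⟩,
    ⟨44, 21, 17, ⟨0, 0⟩, ⟨2, 0⟩⟩,
    ⟨44, 37, 1, ⟨0, 0⟩, ⟨1, 0⟩⟩,
    ⟨44, 37, 17, ⟨0, 0⟩, ⟨2, 0⟩⟩,
    ⟨44, 37, 33, ⟨0, 0⟩, ⟨1, 0⟩⟩]⟩,
  ⟨true, true, false, ⟨-4992, 3072⟩, ⟨-13312, 3072⟩, ⟨-18304, 0⟩, [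
    ⟨12, 11, 7, ⟨0, 0⟩, ⟨1, 0⟩⟩,
    ⟨28, 11, 7, ⟨0, 0⟩, ⟨2, 0⟩⟩,
    ⟨28, 27, 7, ⟨0, 0⟩, ⟨2, 0⟩⟩,
    ⟨28, 27, 23, ⟨0, 0⟩, ⟨2, 0⟩⟩,
    ⟨44, 11, 7, ⟨0, 0⟩, ⟨1, 0⟩⟩,
    ⟨44, 27, 7, ⟨0, 0⟩, ⟨2, 0⟩⟩,
    ⟨44, 27, 23, ⟨0, 0⟩, ⟨2, 0⟩⟩,
    ⟨44, 43, 7, ⟨0, 0⟩, ⟨1, 0⟩⟩,
    ⟨44, 43, 23, ⟨0, 0⟩, ⟨2, 0⟩⟩,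
    ⟨44, 43, 39, ⟨0, 0⟩, ⟨1, 0⟩⟩]⟩,
  ⟨true, true, true, ⟨-4992, 3072⟩, ⟨13312, 3072⟩, ⟨4992, 3072⟩, [
    ⟨12, 5, 4, ⟨0, 0⟩, ⟨1, 0⟩⟩,
    ⟨28, 5, 4, ⟨0, 0⟩, ⟨2, 0⟩⟩,
    ⟨28, 21, 4, ⟨0, 0⟩, ⟨2, 0⟩⟩,
    ⟨28, 21, 20, ⟨0, 0⟩, ⟨2, 0⟩⟩,
    ⟨44, 5, 4, ⟨0, 0⟩, ⟨1, 0⟩⟩,
    ⟨44, 21, 4, ⟨0, 0⟩, ⟨2, 0⟩⟩,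
    ⟨44, 21, 20, ⟨0, 0⟩, ⟨2, 0⟩⟩,
    ⟨44, 37, 4, ⟨0, 0⟩, ⟨1, 0⟩⟩,
    ⟨44, 37, 20, ⟨0, 0⟩, ⟨2, 0⟩⟩,
    ⟨44, 37, 36, ⟨0, 0⟩, ⟨1, 0⟩⟩]⟩,
  ⟨true, true, true, ⟨-4992, 3072⟩, ⟨-13312, 3072⟩, ⟨4992, 3072⟩, [
    ⟨12, 11, 4, ⟨0, 0⟩, ⟨1, 0⟩⟩,
    ⟨28, 11, 4, ⟨0, 0⟩, ⟨2, 0⟩⟩,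
    ⟨28, 27, 4, ⟨0, 0⟩, ⟨2, 0⟩⟩,
    ⟨28, 27, 20, ⟨0, 0⟩, ⟨2, 0⟩⟩,
    ⟨44, 11, 4, ⟨0, 0⟩, ⟨1, 0⟩⟩,
    ⟨44, 27, 4, ⟨0, 0⟩, ⟨2, 0⟩⟩,
    ⟨44, 27, 20, ⟨0, 0⟩, ⟨2, 0⟩⟩,
    ⟨44, 43, 4, ⟨0, 0⟩, ⟨1, 0⟩⟩,
    ⟨44, 43, 20, ⟨0, 0⟩, ⟨2, 0⟩⟩,
    ⟨44, 43, 36, ⟨0, 0⟩, ⟨1, 0⟩⟩]⟩,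
  ⟨false, true, false, ⟨18304, 0⟩, ⟨13312, 3072⟩, ⟨8320, 0⟩, [
    ⟨9, 5, 1, ⟨0, 0⟩, ⟨1, 0⟩⟩,
    ⟨25, 5, 1, ⟨0, 0⟩, ⟨2, 0⟩⟩,
    ⟨25, 21, 1, ⟨0, 0⟩, ⟨2, 0⟩⟩,
    ⟨25, 21, 17, ⟨0, 0⟩, ⟨2, 0⟩⟩,
    ⟨41, 5, 1, ⟨0, 0⟩, ⟨1, 0⟩⟩,
    ⟨41, 21, 1, ⟨0, 0⟩, ⟨2, 0⟩⟩,
    ⟨41, 21, 17, ⟨0, 0⟩, ⟨2, 0⟩⟩,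
    ⟨41, 37, 1, ⟨0, 0⟩, ⟨1, 0⟩⟩,
    ⟨41, 37, 17, ⟨0, 0⟩, ⟨2, 0⟩⟩,
    ⟨41, 37, 33, ⟨0, 0⟩, ⟨1, 0⟩⟩]⟩,
  ⟨false, true, false, ⟨-8320, 0⟩, ⟨-13312, 3072⟩, ⟨-18304, 0⟩, [
    ⟨15, 11, 7, ⟨0, 0⟩, ⟨1, 0⟩⟩,
    ⟨31, 11, 7, ⟨0, 0⟩, ⟨2, 0⟩⟩,
    ⟨31, 27, 7, ⟨0, 0⟩, ⟨2, 0⟩⟩,
    ⟨31, 27, 23, ⟨0, 0⟩, ⟨2, 0⟩⟩,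
    ⟨47, 11, 7, ⟨0, 0⟩, ⟨1, 0⟩⟩,
    ⟨47, 27, 7, ⟨0, 0⟩, ⟨2, 0⟩⟩,
    ⟨47, 27, 23, ⟨0, 0⟩, ⟨2, 0⟩⟩,
    ⟨47, 43, 7, ⟨0, 0⟩, ⟨1, 0⟩⟩,
    ⟨47, 43, 23, ⟨0, 0⟩, ⟨2, 0⟩⟩,
    ⟨47, 43, 39, ⟨0, 0⟩, ⟨1, 0⟩⟩]⟩,
  ⟨false, true, true, ⟨18304, 0⟩, ⟨13312, 3072⟩, ⟨4992, 3072⟩, [
    ⟨9, 5, 4, ⟨0, 0⟩, ⟨1, 0⟩⟩,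
    ⟨25, 5, 4, ⟨0, 0⟩, ⟨2, 0⟩⟩,
    ⟨25, 21, 4, ⟨0, 0⟩, ⟨2, 0⟩⟩,
    ⟨25, 21, 20, ⟨0, 0⟩, ⟨2, 0⟩⟩,
    ⟨41, 5, 4, ⟨0, 0⟩, ⟨1, 0⟩⟩,
    ⟨41, 21, 4, ⟨0, 0⟩, ⟨2, 0⟩⟩,
    ⟨41, 21, 20, ⟨0, 0⟩, ⟨2, 0⟩⟩,
    ⟨41, 37, 4, ⟨0, 0⟩, ⟨1, 0⟩⟩,
    ⟨41, 37, 20, ⟨0, 0⟩, ⟨2, 0⟩⟩,
    ⟨41, 37, 36, ⟨0, 0⟩, ⟨1, 0⟩⟩]⟩,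
  ⟨false, true, true, ⟨-8320, 0⟩, ⟨-13312, 3072⟩, ⟨4992, 3072⟩, [
    ⟨15, 11, 4, ⟨0, 0⟩, ⟨1, 0⟩⟩,
    ⟨31, 11, 4, ⟨0, 0⟩, ⟨2, 0⟩⟩,
    ⟨31, 27, 4, ⟨0, 0⟩, ⟨2, 0⟩⟩,
    ⟨31, 27, 20, ⟨0, 0⟩, ⟨2, 0⟩⟩,
    ⟨47, 11, 4, ⟨0, 0⟩, ⟨1, 0⟩⟩,
    ⟨47, 27, 4, ⟨0, 0⟩, ⟨2, 0⟩⟩,
    ⟨47, 27, 20, ⟨0, 0⟩, ⟨2, 0⟩⟩,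
    ⟨47, 43, 4, ⟨0, 0⟩, ⟨1, 0⟩⟩,
    ⟨47, 43, 20, ⟨0, 0⟩, ⟨2, 0⟩⟩,
    ⟨47, 43, 36, ⟨0, 0⟩, ⟨1, 0⟩⟩]⟩,
  ⟨false, false, true, ⟨18304, 0⟩, ⟨9984, 0⟩, ⟨4992, 3072⟩, [
    ⟨9, 8, 4, ⟨0, 0⟩, ⟨1, 0⟩⟩,
    ⟨25, 8, 4, ⟨0, 0⟩, ⟨2, 0⟩⟩,
    ⟨25, 24, 4, ⟨0, 0⟩, ⟨2, 0⟩⟩,
    ⟨25, 24, 20, ⟨0, 0⟩, ⟨2, 0⟩⟩,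
    ⟨41, 8, 4, ⟨0, 0⟩, ⟨1, 0⟩⟩,
    ⟨41, 24, 4, ⟨0, 0⟩, ⟨2, 0⟩⟩,
    ⟨41, 24, 20, ⟨0, 0⟩, ⟨2, 0⟩⟩,
    ⟨41, 40, 4, ⟨0, 0⟩, ⟨1, 0⟩⟩,
    ⟨41, 40, 20, ⟨0, 0⟩, ⟨2, 0⟩⟩,
    ⟨41, 40, 36, ⟨0, 0⟩, ⟨1, 0⟩⟩]⟩,
  ⟨false, false, true, ⟨-8320, 0⟩, ⟨9984, 0⟩, ⟨4992, 3072⟩, [
    ⟨15, 8, 4, ⟨0, 0⟩, ⟨1, 0⟩⟩,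
    ⟨31, 8, 4, ⟨0, 0⟩, ⟨2, 0⟩⟩,
    ⟨31, 24, 4, ⟨0, 0⟩, ⟨2, 0⟩⟩,
    ⟨31, 24, 20, ⟨0, 0⟩, ⟨2, 0⟩⟩,
    ⟨47, 8, 4, ⟨0, 0⟩, ⟨1, 0⟩⟩,
    ⟨47, 24, 4, ⟨0, 0⟩, ⟨2, 0⟩⟩,
    ⟨47, 24, 20, ⟨0, 0⟩, ⟨2, 0⟩⟩,
    ⟨47, 40, 4, ⟨0, 0⟩, ⟨1, 0⟩⟩,
    ⟨47, 40, 20, ⟨0, 0⟩, ⟨2, 0⟩⟩,
    ⟨47, 40, 36, ⟨0, 0⟩, ⟨1, 0⟩⟩]⟩,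
  ⟨false, false, false, ⟨0, 0⟩, ⟨0, 0⟩, ⟨0, 0⟩, [
    ⟨0, 0, 0, ⟨-10413, 0⟩, ⟨0, 0⟩⟩,
    ⟨16, 0, 0, ⟨10413, 0⟩, ⟨0, 0⟩⟩,
    ⟨16, 16, 0, ⟨10413, 0⟩, ⟨0, 0⟩⟩,
    ⟨16, 16, 16, ⟨10413, 0⟩, ⟨0, 0⟩⟩,
    ⟨32, 0, 0, ⟨10413, 0⟩, ⟨0, 0⟩⟩,
    ⟨32, 16, 0, ⟨-20826, 0⟩, ⟨0, 0⟩⟩,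
    ⟨32, 16, 16, ⟨-20826, 0⟩, ⟨0, 0⟩⟩,
    ⟨32, 32, 0, ⟨10413, 0⟩, ⟨0, 0⟩⟩,
    ⟨32, 32, 16, ⟨-20826, 0⟩, ⟨0, 0⟩⟩,
    ⟨32, 32, 32, ⟨10413, 0⟩, ⟨0, 0⟩⟩,
    ⟨48, 0, 0, ⟨-10413, 0⟩, ⟨0, 0⟩⟩,
    ⟨48, 16, 0, ⟨10413, 0⟩, ⟨0, 0⟩⟩,
    ⟨48, 16, 16, ⟨10413, 0⟩, ⟨0, 0⟩⟩,
    ⟨48, 32, 0, ⟨10413, 0⟩, ⟨0, 0⟩⟩,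
    ⟨48, 32, 16, ⟨-20826, 0⟩, ⟨0, 0⟩⟩,
    ⟨48, 32, 32, ⟨10413, 0⟩, ⟨0, 0⟩⟩,
    ⟨48, 48, 0, ⟨-10413, 0⟩, ⟨0, 0⟩⟩,
    ⟨48, 48, 16, ⟨10413, 0⟩, ⟨0, 0⟩⟩,
    ⟨48, 48, 32, ⟨10413, 0⟩, ⟨0, 0⟩⟩,
    ⟨48, 48, 48, ⟨-10413, 0⟩, ⟨0, 0⟩⟩]⟩],
  0, []⟩

def q3B : Inst := ⟨3, [
  ⟨false, false, false, ⟨0, 0⟩, ⟨0, 0⟩, ⟨0, 0⟩, [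
    ⟨6, 6, 0, ⟨-24, 0⟩, ⟨0, 0⟩⟩,
    ⟨0, 6, 0, ⟨6, 0⟩, ⟨0, 0⟩⟩,
    ⟨0, 0, 0, ⟨6, 0⟩, ⟨0, 0⟩⟩,
    ⟨12, 6, 0, ⟨-24, 0⟩, ⟨0, 0⟩⟩,
    ⟨6, 0, 0, ⟨12, 0⟩, ⟨0, 0⟩⟩,
    ⟨12, 12, 0, ⟨-24, 0⟩, ⟨0, 0⟩⟩,
    ⟨6, 12, 0, ⟨12, 0⟩, ⟨0, 0⟩⟩,
    ⟨18, 6, 0, ⟨6, 0⟩, ⟨0, 0⟩⟩,
    ⟨12, 0, 0, ⟨6, 0⟩, ⟨0, 0⟩⟩,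
    ⟨18, 12, 0, ⟨12, 0⟩, ⟨0, 0⟩⟩,
    ⟨18, 18, 0, ⟨6, 0⟩, ⟨0, 0⟩⟩,
    ⟨12, 18, 0, ⟨6, 0⟩, ⟨0, 0⟩⟩]⟩,
  ⟨false, false, false, ⟨12, 0⟩, ⟨6, 0⟩, ⟨0, 0⟩, [
    ⟨6, 6, 0, ⟨0, 0⟩, ⟨-18, 0⟩⟩]⟩,
  ⟨false, false, false, ⟨-6, 0⟩, ⟨6, 0⟩, ⟨0, 0⟩, [
    ⟨12, 6, 0, ⟨0, 0⟩, ⟨-18, 0⟩⟩]⟩,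
  ⟨false, false, false, ⟨-6, 0⟩, ⟨-12, 0⟩, ⟨0, 0⟩, [
    ⟨12, 12, 0, ⟨0, 0⟩, ⟨-18, 0⟩⟩]⟩,
  ⟨false, true, false, ⟨16, 0⟩, ⟨8, 0⟩, ⟨0, 0⟩, [
    ⟨10, 8, 0, ⟨0, 0⟩, ⟨-24, 0⟩⟩,
    ⟨16, 8, 0, ⟨-16, 0⟩, ⟨-2, 0⟩⟩,
    ⟨16, 14, 0, ⟨-16, 0⟩, ⟨-2, 0⟩⟩,
    ⟨4, 8, 0, ⟨8, 0⟩, ⟨-2, -3⟩⟩,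
    ⟨10, 14, 0, ⟨8, 0⟩, ⟨-2, -3⟩⟩,
    ⟨4, 2, 0, ⟨8, 0⟩, ⟨-2, 3⟩⟩,
    ⟨10, 2, 0, ⟨8, 0⟩, ⟨-2, 3⟩⟩]⟩,
  ⟨true, true, false, ⟨-8, 0⟩, ⟨8, 0⟩, ⟨0, 0⟩, [
    ⟨10, 8, 0, ⟨0, 0⟩, ⟨-24, 0⟩⟩,
    ⟨4, 8, 0, ⟨-16, 0⟩, ⟨-2, 0⟩⟩,
    ⟨10, 14, 0, ⟨-16, 0⟩, ⟨-2, 0⟩⟩,
    ⟨16, 8, 0, ⟨8, 0⟩, ⟨-2, -3⟩⟩,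
    ⟨16, 14, 0, ⟨8, 0⟩, ⟨-2, -3⟩⟩,
    ⟨4, 2, 0, ⟨8, 0⟩, ⟨-2, 3⟩⟩,
    ⟨10, 2, 0, ⟨8, 0⟩, ⟨-2, 3⟩⟩]⟩,
  ⟨true, false, false, ⟨-8, 0⟩, ⟨-16, 0⟩, ⟨0, 0⟩, [
    ⟨10, 8, 0, ⟨0, 0⟩, ⟨-24, 0⟩⟩,
    ⟨4, 2, 0, ⟨-16, 0⟩, ⟨-2, 0⟩⟩,
    ⟨10, 2, 0, ⟨-16, 0⟩, ⟨-2, 0⟩⟩,
    ⟨16, 8, 0, ⟨8, 0⟩, ⟨-2, -3⟩⟩,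
    ⟨16, 14, 0, ⟨8, 0⟩, ⟨-2, -3⟩⟩,
    ⟨4, 8, 0, ⟨8, 0⟩, ⟨-2, 3⟩⟩,
    ⟨10, 14, 0, ⟨8, 0⟩, ⟨-2, 3⟩⟩]⟩],
  0, []⟩

def q3A : Inst := ⟨3, [
  ⟨false, false, false, ⟨0, 0⟩, ⟨0, 0⟩, ⟨0, 0⟩, [
    ⟨6, 6, 0, ⟨-192, 0⟩, ⟨0, 0⟩⟩,
    ⟨0, 6, 0, ⟨48, 0⟩, ⟨0, 0⟩⟩,
    ⟨0, 0, 0, ⟨48, 0⟩, ⟨0, 0⟩⟩,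
    ⟨12, 6, 0, ⟨-192, 0⟩, ⟨0, 0⟩⟩,
    ⟨6, 0, 0, ⟨96, 0⟩, ⟨0, 0⟩⟩,
    ⟨12, 12, 0, ⟨-192, 0⟩, ⟨0, 0⟩⟩,
    ⟨6, 12, 0, ⟨96, 0⟩, ⟨0, 0⟩⟩,
    ⟨18, 6, 0, ⟨48, 0⟩, ⟨0, 0⟩⟩,
    ⟨12, 0, 0, ⟨48, 0⟩, ⟨0, 0⟩⟩,
    ⟨18, 12, 0, ⟨96, 0⟩, ⟨0, 0⟩⟩,
    ⟨18, 18, 0, ⟨48, 0⟩, ⟨0, 0⟩⟩,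
    ⟨12, 18, 0, ⟨48, 0⟩, ⟨0, 0⟩⟩]⟩,
  ⟨false, false, false, ⟨12, 0⟩, ⟨6, 0⟩, ⟨0, 0⟩, [
    ⟨6, 6, 0, ⟨0, 0⟩, ⟨-144, 0⟩⟩]⟩,
  ⟨false, false, false, ⟨-6, 0⟩, ⟨6, 0⟩, ⟨0, 0⟩, [
    ⟨12, 6, 0, ⟨0, 0⟩, ⟨-144, 0⟩⟩]⟩,
  ⟨false, false, false, ⟨-6, 0⟩, ⟨-12, 0⟩, ⟨0, 0⟩, [
    ⟨12, 12, 0, ⟨0, 0⟩, ⟨-144, 0⟩⟩]⟩,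
  ⟨false, true, false, ⟨16, 0⟩, ⟨8, 0⟩, ⟨0, 0⟩, [
    ⟨10, 8, 0, ⟨0, 0⟩, ⟨186, 0⟩⟩,
    ⟨16, 8, 0, ⟨16, 0⟩, ⟨2, 0⟩⟩,
    ⟨16, 14, 0, ⟨16, 0⟩, ⟨2, 0⟩⟩,
    ⟨4, 8, 0, ⟨-8, 0⟩, ⟨2, 3⟩⟩,
    ⟨10, 14, 0, ⟨-8, 0⟩, ⟨2, 3⟩⟩,
    ⟨4, 2, 0, ⟨-8, 0⟩, ⟨2, -3⟩⟩,
    ⟨10, 2, 0, ⟨-8, 0⟩, ⟨2, -3⟩⟩]⟩,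
  ⟨true, true, false, ⟨-8, 0⟩, ⟨8, 0⟩, ⟨0, 0⟩, [
    ⟨10, 8, 0, ⟨0, 0⟩, ⟨186, 0⟩⟩,
    ⟨4, 8, 0, ⟨16, 0⟩, ⟨2, 0⟩⟩,
    ⟨10, 14, 0, ⟨16, 0⟩, ⟨2, 0⟩⟩,
    ⟨16, 8, 0, ⟨-8, 0⟩, ⟨2, 3⟩⟩,
    ⟨16, 14, 0, ⟨-8, 0⟩, ⟨2, 3⟩⟩,
    ⟨4, 2, 0, ⟨-8, 0⟩, ⟨2, -3⟩⟩,
    ⟨10, 2, 0, ⟨-8, 0⟩, ⟨2, -3⟩⟩]⟩,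
  ⟨true, false, false, ⟨-8, 0⟩, ⟨-16, 0⟩, ⟨0, 0⟩, [
    ⟨10, 8, 0, ⟨0, 0⟩, ⟨186, 0⟩⟩,
    ⟨4, 2, 0, ⟨16, 0⟩, ⟨2, 0⟩⟩,
    ⟨10, 2, 0, ⟨16, 0⟩, ⟨2, 0⟩⟩,
    ⟨16, 8, 0, ⟨-8, 0⟩, ⟨2, 3⟩⟩,
    ⟨16, 14, 0, ⟨-8, 0⟩, ⟨2, 3⟩⟩,
    ⟨4, 8, 0, ⟨-8, 0⟩, ⟨2, -3⟩⟩,
    ⟨10, 14, 0, ⟨-8, 0⟩, ⟨2, -3⟩⟩]⟩],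
  0, []⟩

def q3C : Inst := ⟨3, [
  ⟨false, false, false, ⟨0, 0⟩, ⟨0, 0⟩, ⟨0, 0⟩, [
    ⟨0, 0, 0, ⟨1, 0⟩, ⟨0, 0⟩⟩,
    ⟨6, 0, 0, ⟨1, 0⟩, ⟨0, 0⟩⟩,
    ⟨6, 6, 0, ⟨1, 0⟩, ⟨0, 0⟩⟩]⟩,
  ⟨false, true, false, ⟨0, 0⟩, ⟨0, 0⟩, ⟨0, 0⟩, [
    ⟨4, 2, 0, ⟨8, 0⟩, ⟨0, 0⟩⟩]⟩,
  ⟨true, true, false, ⟨0, 0⟩, ⟨0, 0⟩, ⟨0, 0⟩, [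
    ⟨4, 2, 0, ⟨8, 0⟩, ⟨0, 0⟩⟩]⟩,
  ⟨true, false, false, ⟨0, 0⟩, ⟨0, 0⟩, ⟨0, 0⟩, [
    ⟨4, 2, 0, ⟨8, 0⟩, ⟨0, 0⟩⟩]⟩],
  0, []⟩

def gG : Inst := ⟨0, [
  ⟨false, false, false, ⟨0, 0⟩, ⟨0, 0⟩, ⟨0, 0⟩, [
    ⟨16, 12, 0, ⟨16, 0⟩, ⟨0, 0⟩⟩,
    ⟨28, 12, 0, ⟨30, 0⟩, ⟨0, 0⟩⟩,
    ⟨28, 24, 0, ⟨30, 0⟩, ⟨0, 0⟩⟩,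
    ⟨40, 12, 0, ⟨16, 0⟩, ⟨0, 0⟩⟩,
    ⟨40, 24, 0, ⟨30, 0⟩, ⟨0, 0⟩⟩,
    ⟨40, 36, 0, ⟨16, 0⟩, ⟨0, 0⟩⟩,
    ⟨52, 12, 0, ⟨1, 0⟩, ⟨0, 0⟩⟩,
    ⟨52, 24, 0, ⟨3, 0⟩, ⟨0, 0⟩⟩,
    ⟨52, 36, 0, ⟨3, 0⟩, ⟨0, 0⟩⟩,
    ⟨52, 48, 0, ⟨1, 0⟩, ⟨0, 0⟩⟩,
    ⟨4, 12, 0, ⟨1, 0⟩, ⟨0, 0⟩⟩,
    ⟨16, 24, 0, ⟨3, 0⟩, ⟨0, 0⟩⟩,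
    ⟨28, 36, 0, ⟨3, 0⟩, ⟨0, 0⟩⟩,
    ⟨40, 48, 0, ⟨1, 0⟩, ⟨0, 0⟩⟩,
    ⟨4, 0, 0, ⟨1, 0⟩, ⟨0, 0⟩⟩,
    ⟨16, 0, 0, ⟨3, 0⟩, ⟨0, 0⟩⟩,
    ⟨28, 0, 0, ⟨3, 0⟩, ⟨0, 0⟩⟩,
    ⟨40, 0, 0, ⟨1, 0⟩, ⟨0, 0⟩⟩,
    ⟨8, 8, 0, ⟨-4, 0⟩, ⟨0, 0⟩⟩,
    ⟨20, 8, 0, ⟨-21, 0⟩, ⟨0, 0⟩⟩,
    ⟨20, 20, 0, ⟨-21, 0⟩, ⟨0, 0⟩⟩,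
    ⟨32, 8, 0, ⟨-21, 0⟩, ⟨0, 0⟩⟩,
    ⟨32, 20, 0, ⟨-24, 0⟩, ⟨0, 0⟩⟩,
    ⟨32, 32, 0, ⟨-21, 0⟩, ⟨0, 0⟩⟩,
    ⟨44, 8, 0, ⟨-4, 0⟩, ⟨0, 0⟩⟩,
    ⟨44, 20, 0, ⟨-21, 0⟩, ⟨0, 0⟩⟩,
    ⟨44, 32, 0, ⟨-21, 0⟩, ⟨0, 0⟩⟩,
    ⟨44, 44, 0, ⟨-4, 0⟩, ⟨0, 0⟩⟩]⟩],
  6, [(0, 0, 0, 3), (12, 0, 0, 3), (12, 12, 0, 3)]⟩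

def gQ : Inst := ⟨0, [
  ⟨false, false, false, ⟨0, 0⟩, ⟨0, 0⟩, ⟨0, 0⟩, [
    ⟨21, 18, 0, ⟨24000, 0⟩, ⟨0, 0⟩⟩,
    ⟨33, 18, 0, ⟨45000, 0⟩, ⟨0, 0⟩⟩,
    ⟨33, 30, 0, ⟨39000, 0⟩, ⟨0, 0⟩⟩,
    ⟨45, 18, 0, ⟨22000, 0⟩, ⟨0, 0⟩⟩,
    ⟨45, 30, 0, ⟨36000, 0⟩, ⟨0, 0⟩⟩,
    ⟨45, 42, 0, ⟨18000, 0⟩, ⟨0, 0⟩⟩,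
    ⟨9, 18, 0, ⟨1000, 0⟩, ⟨0, 0⟩⟩,
    ⟨21, 30, 0, ⟨3000, 0⟩, ⟨0, 0⟩⟩,
    ⟨33, 42, 0, ⟨3000, 0⟩, ⟨0, 0⟩⟩,
    ⟨45, 54, 0, ⟨1000, 0⟩, ⟨0, 0⟩⟩,
    ⟨9, 6, 0, ⟨3000, 0⟩, ⟨0, 0⟩⟩,
    ⟨21, 6, 0, ⟨9000, 0⟩, ⟨0, 0⟩⟩,
    ⟨33, 6, 0, ⟨9000, 0⟩, ⟨0, 0⟩⟩,
    ⟨45, 6, 0, ⟨3000, 0⟩, ⟨0, 0⟩⟩,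
    ⟨21, 12, 0, ⟨24000, 0⟩, ⟨0, 0⟩⟩,
    ⟨33, 12, 0, ⟨39000, 0⟩, ⟨0, 0⟩⟩,
    ⟨33, 24, 0, ⟨45000, 0⟩, ⟨0, 0⟩⟩,
    ⟨45, 12, 0, ⟨18000, 0⟩, ⟨0, 0⟩⟩,
    ⟨45, 24, 0, ⟨36000, 0⟩, ⟨0, 0⟩⟩,
    ⟨45, 36, 0, ⟨22000, 0⟩, ⟨0, 0⟩⟩,
    ⟨9, 0, 0, ⟨1000, 0⟩, ⟨0, 0⟩⟩,
    ⟨21, 0, 0, ⟨3000, 0⟩, ⟨0, 0⟩⟩,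
    ⟨33, 0, 0, ⟨3000, 0⟩, ⟨0, 0⟩⟩,
    ⟨45, 0, 0, ⟨1000, 0⟩, ⟨0, 0⟩⟩,
    ⟨9, 12, 0, ⟨3000, 0⟩, ⟨0, 0⟩⟩,
    ⟨21, 24, 0, ⟨9000, 0⟩, ⟨0, 0⟩⟩,
    ⟨33, 36, 0, ⟨9000, 0⟩, ⟨0, 0⟩⟩,
    ⟨45, 48, 0, ⟨3000, 0⟩, ⟨0, 0⟩⟩,
    ⟨18, 18, 0, ⟨22000, 0⟩, ⟨0, 0⟩⟩,
    ⟨30, 18, 0, ⟨45000, 0⟩, ⟨0, 0⟩⟩,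
    ⟨30, 30, 0, ⟨36000, 0⟩, ⟨0, 0⟩⟩,
    ⟨42, 18, 0, ⟨24000, 0⟩, ⟨0, 0⟩⟩,
    ⟨42, 30, 0, ⟨39000, 0⟩, ⟨0, 0⟩⟩,
    ⟨42, 42, 0, ⟨18000, 0⟩, ⟨0, 0⟩⟩,
    ⟨54, 18, 0, ⟨1000, 0⟩, ⟨0, 0⟩⟩,
    ⟨54, 30, 0, ⟨3000, 0⟩, ⟨0, 0⟩⟩,
    ⟨54, 42, 0, ⟨3000, 0⟩, ⟨0, 0⟩⟩,
    ⟨54, 54, 0, ⟨1000, 0⟩, ⟨0, 0⟩⟩,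
    ⟨6, 6, 0, ⟨3000, 0⟩, ⟨0, 0⟩⟩,
    ⟨18, 6, 0, ⟨9000, 0⟩, ⟨0, 0⟩⟩,
    ⟨30, 6, 0, ⟨9000, 0⟩, ⟨0, 0⟩⟩,
    ⟨42, 6, 0, ⟨3000, 0⟩, ⟨0, 0⟩⟩,
    ⟨12, 12, 0, ⟨18000, 0⟩, ⟨0, 0⟩⟩,
    ⟨24, 12, 0, ⟨39000, 0⟩, ⟨0, 0⟩⟩,
    ⟨24, 24, 0, ⟨36000, 0⟩, ⟨0, 0⟩⟩,
    ⟨36, 12, 0, ⟨24000, 0⟩, ⟨0, 0⟩⟩,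
    ⟨36, 24, 0, ⟨45000, 0⟩, ⟨0, 0⟩⟩,
    ⟨36, 36, 0, ⟨22000, 0⟩, ⟨0, 0⟩⟩,
    ⟨0, 0, 0, ⟨1000, 0⟩, ⟨0, 0⟩⟩,
    ⟨12, 0, 0, ⟨3000, 0⟩, ⟨0, 0⟩⟩,
    ⟨24, 0, 0, ⟨3000, 0⟩, ⟨0, 0⟩⟩,
    ⟨36, 0, 0, ⟨1000, 0⟩, ⟨0, 0⟩⟩,
    ⟨48, 12, 0, ⟨3000, 0⟩, ⟨0, 0⟩⟩,
    ⟨48, 24, 0, ⟨9000, 0⟩, ⟨0, 0⟩⟩,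
    ⟨48, 36, 0, ⟨9000, 0⟩, ⟨0, 0⟩⟩,
    ⟨48, 48, 0, ⟨3000, 0⟩, ⟨0, 0⟩⟩,
    ⟨18, 9, 0, ⟨22000, 0⟩, ⟨0, 0⟩⟩,
    ⟨30, 9, 0, ⟨36000, 0⟩, ⟨0, 0⟩⟩,
    ⟨30, 21, 0, ⟨45000, 0⟩, ⟨0, 0⟩⟩,
    ⟨42, 9, 0, ⟨18000, 0⟩, ⟨0, 0⟩⟩,
    ⟨42, 21, 0, ⟨39000, 0⟩, ⟨0, 0⟩⟩,
    ⟨42, 33, 0, ⟨24000, 0⟩, ⟨0, 0⟩⟩,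
    ⟨54, 9, 0, ⟨1000, 0⟩, ⟨0, 0⟩⟩,
    ⟨54, 21, 0, ⟨3000, 0⟩, ⟨0, 0⟩⟩,
    ⟨54, 33, 0, ⟨3000, 0⟩, ⟨0, 0⟩⟩,
    ⟨54, 45, 0, ⟨1000, 0⟩, ⟨0, 0⟩⟩,
    ⟨6, 9, 0, ⟨3000, 0⟩, ⟨0, 0⟩⟩,
    ⟨18, 21, 0, ⟨9000, 0⟩, ⟨0, 0⟩⟩,
    ⟨30, 33, 0, ⟨9000, 0⟩, ⟨0, 0⟩⟩,
    ⟨42, 45, 0, ⟨3000, 0⟩, ⟨0, 0⟩⟩,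
    ⟨12, 9, 0, ⟨18000, 0⟩, ⟨0, 0⟩⟩,
    ⟨24, 9, 0, ⟨36000, 0⟩, ⟨0, 0⟩⟩,
    ⟨24, 21, 0, ⟨39000, 0⟩, ⟨0, 0⟩⟩,
    ⟨36, 9, 0, ⟨22000, 0⟩, ⟨0, 0⟩⟩,
    ⟨36, 21, 0, ⟨45000, 0⟩, ⟨0, 0⟩⟩,
    ⟨36, 33, 0, ⟨24000, 0⟩, ⟨0, 0⟩⟩,
    ⟨0, 9, 0, ⟨1000, 0⟩, ⟨0, 0⟩⟩,
    ⟨12, 21, 0, ⟨3000, 0⟩, ⟨0, 0⟩⟩,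
    ⟨24, 33, 0, ⟨3000, 0⟩, ⟨0, 0⟩⟩,
    ⟨36, 45, 0, ⟨1000, 0⟩, ⟨0, 0⟩⟩,
    ⟨48, 9, 0, ⟨3000, 0⟩, ⟨0, 0⟩⟩,
    ⟨48, 21, 0, ⟨9000, 0⟩, ⟨0, 0⟩⟩,
    ⟨48, 33, 0, ⟨9000, 0⟩, ⟨0, 0⟩⟩,
    ⟨48, 45, 0, ⟨3000, 0⟩, ⟨0, 0⟩⟩,
    ⟨9, 9, 0, ⟨-27234, 0⟩, ⟨0, 0⟩⟩,
    ⟨21, 9, 0, ⟨-80541, 0⟩, ⟨0, 0⟩⟩,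
    ⟨21, 21, 0, ⟨-80541, 0⟩, ⟨0, 0⟩⟩,
    ⟨33, 9, 0, ⟨-80541, 0⟩, ⟨0, 0⟩⟩,
    ⟨33, 21, 0, ⟨-163404, 0⟩, ⟨0, 0⟩⟩,
    ⟨33, 33, 0, ⟨-80541, 0⟩, ⟨0, 0⟩⟩,
    ⟨45, 9, 0, ⟨-27234, 0⟩, ⟨0, 0⟩⟩,
    ⟨45, 21, 0, ⟨-80541, 0⟩, ⟨0, 0⟩⟩,
    ⟨45, 33, 0, ⟨-80541, 0⟩, ⟨0, 0⟩⟩,
    ⟨45, 45, 0, ⟨-27234, 0⟩, ⟨0, 0⟩⟩,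
    ⟨17, 13, 0, ⟨-56064, 0⟩, ⟨0, 0⟩⟩,
    ⟨29, 13, 0, ⟨-105120, 0⟩, ⟨0, 0⟩⟩,
    ⟨29, 25, 0, ⟨-105120, 0⟩, ⟨0, 0⟩⟩,
    ⟨41, 13, 0, ⟨-56064, 0⟩, ⟨0, 0⟩⟩,
    ⟨41, 25, 0, ⟨-105120, 0⟩, ⟨0, 0⟩⟩,
    ⟨41, 37, 0, ⟨-56064, 0⟩, ⟨0, 0⟩⟩,
    ⟨53, 13, 0, ⟨-3504, 0⟩, ⟨0, 0⟩⟩,
    ⟨53, 25, 0, ⟨-10512, 0⟩, ⟨0, 0⟩⟩,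
    ⟨53, 37, 0, ⟨-10512, 0⟩, ⟨0, 0⟩⟩,
    ⟨53, 49, 0, ⟨-3504, 0⟩, ⟨0, 0⟩⟩,
    ⟨5, 13, 0, ⟨-3504, 0⟩, ⟨0, 0⟩⟩,
    ⟨17, 25, 0, ⟨-10512, 0⟩, ⟨0, 0⟩⟩,
    ⟨29, 37, 0, ⟨-10512, 0⟩, ⟨0, 0⟩⟩,
    ⟨41, 49, 0, ⟨-3504, 0⟩, ⟨0, 0⟩⟩,
    ⟨5, 1, 0, ⟨-3504, 0⟩, ⟨0, 0⟩⟩,
    ⟨17, 1, 0, ⟨-10512, 0⟩, ⟨0, 0⟩⟩,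
    ⟨29, 1, 0, ⟨-10512, 0⟩, ⟨0, 0⟩⟩,
    ⟨41, 1, 0, ⟨-3504, 0⟩, ⟨0, 0⟩⟩]⟩],
  6, [(0, 0, 0, 3), (12, 0, 0, 3), (12, 12, 0, 3)]⟩

def gQC : Inst := ⟨24, [
  ⟨false, false, false, ⟨0, 0⟩, ⟨0, 0⟩, ⟨0, 0⟩, [
    ⟨21, 18, 0, ⟨120000, 0⟩, ⟨0, 0⟩⟩,
    ⟨33, 18, 0, ⟨225000, 0⟩, ⟨0, 0⟩⟩,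
    ⟨33, 30, 0, ⟨195000, 0⟩, ⟨0, 0⟩⟩,
    ⟨45, 18, 0, ⟨110000, 0⟩, ⟨0, 0⟩⟩,
    ⟨45, 30, 0, ⟨180000, 0⟩, ⟨0, 0⟩⟩,
    ⟨45, 42, 0, ⟨90000, 0⟩, ⟨0, 0⟩⟩,
    ⟨9, 18, 0, ⟨5000, 0⟩, ⟨0, 0⟩⟩,
    ⟨21, 30, 0, ⟨15000, 0⟩, ⟨0, 0⟩⟩,
    ⟨33, 42, 0, ⟨15000, 0⟩, ⟨0, 0⟩⟩,
    ⟨45, 54, 0, ⟨5000, 0⟩, ⟨0, 0⟩⟩,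
    ⟨9, 6, 0, ⟨15000, 0⟩, ⟨0, 0⟩⟩,
    ⟨21, 6, 0, ⟨45000, 0⟩, ⟨0, 0⟩⟩,
    ⟨33, 6, 0, ⟨45000, 0⟩, ⟨0, 0⟩⟩,
    ⟨45, 6, 0, ⟨15000, 0⟩, ⟨0, 0⟩⟩,
    ⟨21, 12, 0, ⟨120000, 0⟩, ⟨0, 0⟩⟩,
    ⟨33, 12, 0, ⟨195000, 0⟩, ⟨0, 0⟩⟩,
    ⟨33, 24, 0, ⟨225000, 0⟩, ⟨0, 0⟩⟩,
    ⟨45, 12, 0, ⟨90000, 0⟩, ⟨0, 0⟩⟩,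
    ⟨45, 24, 0, ⟨180000, 0⟩, ⟨0, 0⟩⟩,
    ⟨45, 36, 0, ⟨110000, 0⟩, ⟨0, 0⟩⟩,
    ⟨9, 0, 0, ⟨5000, 0⟩, ⟨0, 0⟩⟩,
    ⟨21, 0, 0, ⟨15000, 0⟩, ⟨0, 0⟩⟩,
    ⟨33, 0, 0, ⟨15000, 0⟩, ⟨0, 0⟩⟩,
    ⟨45, 0, 0, ⟨5000, 0⟩, ⟨0, 0⟩⟩,
    ⟨9, 12, 0, ⟨15000, 0⟩, ⟨0, 0⟩⟩,
    ⟨21, 24, 0, ⟨45000, 0⟩, ⟨0, 0⟩⟩,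
    ⟨33, 36, 0, ⟨45000, 0⟩, ⟨0, 0⟩⟩,
    ⟨45, 48, 0, ⟨15000, 0⟩, ⟨0, 0⟩⟩,
    ⟨18, 18, 0, ⟨110000, 0⟩, ⟨0, 0⟩⟩,
    ⟨30, 18, 0, ⟨225000, 0⟩, ⟨0, 0⟩⟩,
    ⟨30, 30, 0, ⟨180000, 0⟩, ⟨0, 0⟩⟩,
    ⟨42, 18, 0, ⟨120000, 0⟩, ⟨0, 0⟩⟩,
    ⟨42, 30, 0, ⟨195000, 0⟩, ⟨0, 0⟩⟩,
    ⟨42, 42, 0, ⟨90000, 0⟩, ⟨0, 0⟩⟩,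
    ⟨54, 18, 0, ⟨5000, 0⟩, ⟨0, 0⟩⟩,
    ⟨54, 30, 0, ⟨15000, 0⟩, ⟨0, 0⟩⟩,
    ⟨54, 42, 0, ⟨15000, 0⟩, ⟨0, 0⟩⟩,
    ⟨54, 54, 0, ⟨5000, 0⟩, ⟨0, 0⟩⟩,
    ⟨6, 6, 0, ⟨15000, 0⟩, ⟨0, 0⟩⟩,
    ⟨18, 6, 0, ⟨45000, 0⟩, ⟨0, 0⟩⟩,
    ⟨30, 6, 0, ⟨45000, 0⟩, ⟨0, 0⟩⟩,
    ⟨42, 6, 0, ⟨15000, 0⟩, ⟨0, 0⟩⟩,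
    ⟨12, 12, 0, ⟨90000, 0⟩, ⟨0, 0⟩⟩,
    ⟨24, 12, 0, ⟨195000, 0⟩, ⟨0, 0⟩⟩,
    ⟨24, 24, 0, ⟨180000, 0⟩, ⟨0, 0⟩⟩,
    ⟨36, 12, 0, ⟨120000, 0⟩, ⟨0, 0⟩⟩,
    ⟨36, 24, 0, ⟨225000, 0⟩, ⟨0, 0⟩⟩,
    ⟨36, 36, 0, ⟨110000, 0⟩, ⟨0, 0⟩⟩,
    ⟨0, 0, 0, ⟨5000, 0⟩, ⟨0, 0⟩⟩,
    ⟨12, 0, 0, ⟨15000, 0⟩, ⟨0, 0⟩⟩,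
    ⟨24, 0, 0, ⟨15000, 0⟩, ⟨0, 0⟩⟩,
    ⟨36, 0, 0, ⟨5000, 0⟩, ⟨0, 0⟩⟩,
    ⟨48, 12, 0, ⟨15000, 0⟩, ⟨0, 0⟩⟩,
    ⟨48, 24, 0, ⟨45000, 0⟩, ⟨0, 0⟩⟩,
    ⟨48, 36, 0, ⟨45000, 0⟩, ⟨0, 0⟩⟩,
    ⟨48, 48, 0, ⟨15000, 0⟩, ⟨0, 0⟩⟩,
    ⟨18, 9, 0, ⟨110000, 0⟩, ⟨0, 0⟩⟩,
    ⟨30, 9, 0, ⟨180000, 0⟩, ⟨0, 0⟩⟩,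
    ⟨30, 21, 0, ⟨225000, 0⟩, ⟨0, 0⟩⟩,
    ⟨42, 9, 0, ⟨90000, 0⟩, ⟨0, 0⟩⟩,
    ⟨42, 21, 0, ⟨195000, 0⟩, ⟨0, 0⟩⟩,
    ⟨42, 33, 0, ⟨120000, 0⟩, ⟨0, 0⟩⟩,
    ⟨54, 9, 0, ⟨5000, 0⟩, ⟨0, 0⟩⟩,
    ⟨54, 21, 0, ⟨15000, 0⟩, ⟨0, 0⟩⟩,
    ⟨54, 33, 0, ⟨15000, 0⟩, ⟨0, 0⟩⟩,
    ⟨54, 45, 0, ⟨5000, 0⟩, ⟨0, 0⟩⟩,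
    ⟨6, 9, 0, ⟨15000, 0⟩, ⟨0, 0⟩⟩,
    ⟨18, 21, 0, ⟨45000, 0⟩, ⟨0, 0⟩⟩,
    ⟨30, 33, 0, ⟨45000, 0⟩, ⟨0, 0⟩⟩,
    ⟨42, 45, 0, ⟨15000, 0⟩, ⟨0, 0⟩⟩,
    ⟨12, 9, 0, ⟨90000, 0⟩, ⟨0, 0⟩⟩,
    ⟨24, 9, 0, ⟨180000, 0⟩, ⟨0, 0⟩⟩,
    ⟨24, 21, 0, ⟨195000, 0⟩, ⟨0, 0⟩⟩,
    ⟨36, 9, 0, ⟨110000, 0⟩, ⟨0, 0⟩⟩,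
    ⟨36, 21, 0, ⟨225000, 0⟩, ⟨0, 0⟩⟩,
    ⟨36, 33, 0, ⟨120000, 0⟩, ⟨0, 0⟩⟩,
    ⟨0, 9, 0, ⟨5000, 0⟩, ⟨0, 0⟩⟩,
    ⟨12, 21, 0, ⟨15000, 0⟩, ⟨0, 0⟩⟩,
    ⟨24, 33, 0, ⟨15000, 0⟩, ⟨0, 0⟩⟩,
    ⟨36, 45, 0, ⟨5000, 0⟩, ⟨0, 0⟩⟩,
    ⟨48, 9, 0, ⟨15000, 0⟩, ⟨0, 0⟩⟩,
    ⟨48, 21, 0, ⟨45000, 0⟩, ⟨0, 0⟩⟩,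
    ⟨48, 33, 0, ⟨45000, 0⟩, ⟨0, 0⟩⟩,
    ⟨48, 45, 0, ⟨15000, 0⟩, ⟨0, 0⟩⟩,
    ⟨9, 9, 0, ⟨-136550, 0⟩, ⟨0, 0⟩⟩,
    ⟨21, 9, 0, ⟨-408399, 0⟩, ⟨0, 0⟩⟩,
    ⟨21, 21, 0, ⟨-408399, 0⟩, ⟨0, 0⟩⟩,
    ⟨33, 9, 0, ⟨-408399, 0⟩, ⟨0, 0⟩⟩,
    ⟨33, 21, 0, ⟨-819300, 0⟩, ⟨0, 0⟩⟩,
    ⟨33, 33, 0, ⟨-408399, 0⟩, ⟨0, 0⟩⟩,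
    ⟨45, 9, 0, ⟨-136550, 0⟩, ⟨0, 0⟩⟩,
    ⟨45, 21, 0, ⟨-408399, 0⟩, ⟨0, 0⟩⟩,
    ⟨45, 33, 0, ⟨-408399, 0⟩, ⟨0, 0⟩⟩,
    ⟨45, 45, 0, ⟨-136550, 0⟩, ⟨0, 0⟩⟩,
    ⟨17, 13, 0, ⟨-277120, 0⟩, ⟨0, 0⟩⟩,
    ⟨29, 13, 0, ⟨-519600, 0⟩, ⟨0, 0⟩⟩,
    ⟨29, 25, 0, ⟨-519600, 0⟩, ⟨0, 0⟩⟩,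
    ⟨41, 13, 0, ⟨-277120, 0⟩, ⟨0, 0⟩⟩,
    ⟨41, 25, 0, ⟨-519600, 0⟩, ⟨0, 0⟩⟩,
    ⟨41, 37, 0, ⟨-277120, 0⟩, ⟨0, 0⟩⟩,
    ⟨53, 13, 0, ⟨-17320, 0⟩, ⟨0, 0⟩⟩,
    ⟨53, 25, 0, ⟨-51960, 0⟩, ⟨0, 0⟩⟩,
    ⟨53, 37, 0, ⟨-51960, 0⟩, ⟨0, 0⟩⟩,
    ⟨53, 49, 0, ⟨-17320, 0⟩, ⟨0, 0⟩⟩,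
    ⟨5, 13, 0, ⟨-17320, 0⟩, ⟨0, 0⟩⟩,
    ⟨17, 25, 0, ⟨-51960, 0⟩, ⟨0, 0⟩⟩,
    ⟨29, 37, 0, ⟨-51960, 0⟩, ⟨0, 0⟩⟩,
    ⟨41, 49, 0, ⟨-17320, 0⟩, ⟨0, 0⟩⟩,
    ⟨5, 1, 0, ⟨-17320, 0⟩, ⟨0, 0⟩⟩,
    ⟨17, 1, 0, ⟨-51960, 0⟩, ⟨0, 0⟩⟩,
    ⟨29, 1, 0, ⟨-51960, 0⟩, ⟨0, 0⟩⟩,
    ⟨41, 1, 0, ⟨-17320, 0⟩, ⟨0, 0⟩⟩]⟩,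
  ⟨false, true, false, ⟨0, 0⟩, ⟨0, 0⟩, ⟨0, 0⟩, [
    ⟨21, 15, 0, ⟨192, 0⟩, ⟨0, 0⟩⟩,
    ⟨33, 15, 0, ⟨336, -192⟩, ⟨0, 0⟩⟩,
    ⟨33, 27, 0, ⟨336, 192⟩, ⟨0, 0⟩⟩,
    ⟨45, 15, 0, ⟨160, -128⟩, ⟨0, 0⟩⟩,
    ⟨45, 27, 0, ⟨288, 0⟩, ⟨0, 0⟩⟩,
    ⟨45, 39, 0, ⟨160, 128⟩, ⟨0, 0⟩⟩,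
    ⟨9, 15, 0, ⟨16, 64⟩, ⟨0, 0⟩⟩,
    ⟨21, 27, 0, ⟨48, 192⟩, ⟨0, 0⟩⟩,
    ⟨33, 39, 0, ⟨48, 192⟩, ⟨0, 0⟩⟩,
    ⟨45, 51, 0, ⟨16, 64⟩, ⟨0, 0⟩⟩,
    ⟨9, 3, 0, ⟨16, -64⟩, ⟨0, 0⟩⟩,
    ⟨21, 3, 0, ⟨48, -192⟩, ⟨0, 0⟩⟩,
    ⟨33, 3, 0, ⟨48, -192⟩, ⟨0, 0⟩⟩,
    ⟨45, 3, 0, ⟨16, -64⟩, ⟨0, 0⟩⟩]⟩,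
  ⟨true, true, false, ⟨0, 0⟩, ⟨0, 0⟩, ⟨0, 0⟩, [
    ⟨15, 15, 0, ⟨160, -128⟩, ⟨0, 0⟩⟩,
    ⟨27, 15, 0, ⟨336, -192⟩, ⟨0, 0⟩⟩,
    ⟨27, 27, 0, ⟨288, 0⟩, ⟨0, 0⟩⟩,
    ⟨39, 15, 0, ⟨192, 0⟩, ⟨0, 0⟩⟩,
    ⟨39, 27, 0, ⟨336, 192⟩, ⟨0, 0⟩⟩,
    ⟨39, 39, 0, ⟨160, 128⟩, ⟨0, 0⟩⟩,
    ⟨51, 15, 0, ⟨16, 64⟩, ⟨0, 0⟩⟩,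
    ⟨51, 27, 0, ⟨48, 192⟩, ⟨0, 0⟩⟩,
    ⟨51, 39, 0, ⟨48, 192⟩, ⟨0, 0⟩⟩,
    ⟨51, 51, 0, ⟨16, 64⟩, ⟨0, 0⟩⟩,
    ⟨3, 3, 0, ⟨16, -64⟩, ⟨0, 0⟩⟩,
    ⟨15, 3, 0, ⟨48, -192⟩, ⟨0, 0⟩⟩,
    ⟨27, 3, 0, ⟨48, -192⟩, ⟨0, 0⟩⟩,
    ⟨39, 3, 0, ⟨16, -64⟩, ⟨0, 0⟩⟩]⟩,
  ⟨true, false, false, ⟨0, 0⟩, ⟨0, 0⟩, ⟨0, 0⟩, [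
    ⟨15, 9, 0, ⟨160, -128⟩, ⟨0, 0⟩⟩,
    ⟨27, 9, 0, ⟨288, 0⟩, ⟨0, 0⟩⟩,
    ⟨27, 21, 0, ⟨336, -192⟩, ⟨0, 0⟩⟩,
    ⟨39, 9, 0, ⟨160, 128⟩, ⟨0, 0⟩⟩,
    ⟨39, 21, 0, ⟨336, 192⟩, ⟨0, 0⟩⟩,
    ⟨39, 33, 0, ⟨192, 0⟩, ⟨0, 0⟩⟩,
    ⟨51, 9, 0, ⟨16, 64⟩, ⟨0, 0⟩⟩,
    ⟨51, 21, 0, ⟨48, 192⟩, ⟨0, 0⟩⟩,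
    ⟨51, 33, 0, ⟨48, 192⟩, ⟨0, 0⟩⟩,
    ⟨51, 45, 0, ⟨16, 64⟩, ⟨0, 0⟩⟩,
    ⟨3, 9, 0, ⟨16, -64⟩, ⟨0, 0⟩⟩,
    ⟨15, 21, 0, ⟨48, -192⟩, ⟨0, 0⟩⟩,
    ⟨27, 33, 0, ⟨48, -192⟩, ⟨0, 0⟩⟩,
    ⟨39, 45, 0, ⟨16, -64⟩, ⟨0, 0⟩⟩]⟩],
  6, [(0, 0, 0, 3), (12, 0, 0, 3), (12, 12, 0, 3)]⟩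

def gH : Inst := ⟨0, [
  ⟨false, false, false, ⟨0, 0⟩, ⟨0, 0⟩, ⟨0, 0⟩, [
    ⟨20, 14, 0, ⟨2400, 0⟩, ⟨0, 0⟩⟩,
    ⟨32, 14, 0, ⟨4200, 0⟩, ⟨0, 0⟩⟩,
    ⟨32, 26, 0, ⟨4200, 0⟩, ⟨0, 0⟩⟩,
    ⟨44, 14, 0, ⟨2000, 0⟩, ⟨0, 0⟩⟩,
    ⟨44, 26, 0, ⟨3600, 0⟩, ⟨0, 0⟩⟩,
    ⟨44, 38, 0, ⟨2000, 0⟩, ⟨0, 0⟩⟩,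
    ⟨8, 14, 0, ⟨200, 0⟩, ⟨0, 0⟩⟩,
    ⟨20, 26, 0, ⟨600, 0⟩, ⟨0, 0⟩⟩,
    ⟨32, 38, 0, ⟨600, 0⟩, ⟨0, 0⟩⟩,
    ⟨44, 50, 0, ⟨200, 0⟩, ⟨0, 0⟩⟩,
    ⟨8, 2, 0, ⟨200, 0⟩, ⟨0, 0⟩⟩,
    ⟨20, 2, 0, ⟨600, 0⟩, ⟨0, 0⟩⟩,
    ⟨32, 2, 0, ⟨600, 0⟩, ⟨0, 0⟩⟩,
    ⟨44, 2, 0, ⟨200, 0⟩, ⟨0, 0⟩⟩,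
    ⟨14, 14, 0, ⟨2000, 0⟩, ⟨0, 0⟩⟩,
    ⟨26, 14, 0, ⟨4200, 0⟩, ⟨0, 0⟩⟩,
    ⟨26, 26, 0, ⟨3600, 0⟩, ⟨0, 0⟩⟩,
    ⟨38, 14, 0, ⟨2400, 0⟩, ⟨0, 0⟩⟩,
    ⟨38, 26, 0, ⟨4200, 0⟩, ⟨0, 0⟩⟩,
    ⟨38, 38, 0, ⟨2000, 0⟩, ⟨0, 0⟩⟩,
    ⟨50, 14, 0, ⟨200, 0⟩, ⟨0, 0⟩⟩,
    ⟨50, 26, 0, ⟨600, 0⟩, ⟨0, 0⟩⟩,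
    ⟨50, 38, 0, ⟨600, 0⟩, ⟨0, 0⟩⟩,
    ⟨50, 50, 0, ⟨200, 0⟩, ⟨0, 0⟩⟩,
    ⟨2, 2, 0, ⟨200, 0⟩, ⟨0, 0⟩⟩,
    ⟨14, 2, 0, ⟨600, 0⟩, ⟨0, 0⟩⟩,
    ⟨26, 2, 0, ⟨600, 0⟩, ⟨0, 0⟩⟩,
    ⟨38, 2, 0, ⟨200, 0⟩, ⟨0, 0⟩⟩,
    ⟨14, 8, 0, ⟨2000, 0⟩, ⟨0, 0⟩⟩,
    ⟨26, 8, 0, ⟨3600, 0⟩, ⟨0, 0⟩⟩,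
    ⟨26, 20, 0, ⟨4200, 0⟩, ⟨0, 0⟩⟩,
    ⟨38, 8, 0, ⟨2000, 0⟩, ⟨0, 0⟩⟩,
    ⟨38, 20, 0, ⟨4200, 0⟩, ⟨0, 0⟩⟩,
    ⟨38, 32, 0, ⟨2400, 0⟩, ⟨0, 0⟩⟩,
    ⟨50, 8, 0, ⟨200, 0⟩, ⟨0, 0⟩⟩,
    ⟨50, 20, 0, ⟨600, 0⟩, ⟨0, 0⟩⟩,
    ⟨50, 32, 0, ⟨600, 0⟩, ⟨0, 0⟩⟩,
    ⟨50, 44, 0, ⟨200, 0⟩, ⟨0, 0⟩⟩,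
    ⟨2, 8, 0, ⟨200, 0⟩, ⟨0, 0⟩⟩,
    ⟨14, 20, 0, ⟨600, 0⟩, ⟨0, 0⟩⟩,
    ⟨26, 32, 0, ⟨600, 0⟩, ⟨0, 0⟩⟩,
    ⟨38, 44, 0, ⟨200, 0⟩, ⟨0, 0⟩⟩,
    ⟨8, 8, 0, ⟨-1166, 0⟩, ⟨0, 0⟩⟩,
    ⟨20, 8, 0, ⟨-3759, 0⟩, ⟨0, 0⟩⟩,
    ⟨20, 20, 0, ⟨-3759, 0⟩, ⟨0, 0⟩⟩,
    ⟨32, 8, 0, ⟨-3759, 0⟩, ⟨0, 0⟩⟩,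
    ⟨32, 20, 0, ⟨-6996, 0⟩, ⟨0, 0⟩⟩,
    ⟨32, 32, 0, ⟨-3759, 0⟩, ⟨0, 0⟩⟩,
    ⟨44, 8, 0, ⟨-1166, 0⟩, ⟨0, 0⟩⟩,
    ⟨44, 20, 0, ⟨-3759, 0⟩, ⟨0, 0⟩⟩,
    ⟨44, 32, 0, ⟨-3759, 0⟩, ⟨0, 0⟩⟩,
    ⟨44, 44, 0, ⟨-1166, 0⟩, ⟨0, 0⟩⟩,
    ⟨16, 12, 0, ⟨-3136, 0⟩, ⟨0, 0⟩⟩,
    ⟨28, 12, 0, ⟨-5880, 0⟩, ⟨0, 0⟩⟩,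
    ⟨28, 24, 0, ⟨-5880, 0⟩, ⟨0, 0⟩⟩,
    ⟨40, 12, 0, ⟨-3136, 0⟩, ⟨0, 0⟩⟩,
    ⟨40, 24, 0, ⟨-5880, 0⟩, ⟨0, 0⟩⟩,
    ⟨40, 36, 0, ⟨-3136, 0⟩, ⟨0, 0⟩⟩,
    ⟨52, 12, 0, ⟨-196, 0⟩, ⟨0, 0⟩⟩,
    ⟨52, 24, 0, ⟨-588, 0⟩, ⟨0, 0⟩⟩,
    ⟨52, 36, 0, ⟨-588, 0⟩, ⟨0, 0⟩⟩,
    ⟨52, 48, 0, ⟨-196, 0⟩, ⟨0, 0⟩⟩,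
    ⟨4, 12, 0, ⟨-196, 0⟩, ⟨0, 0⟩⟩,
    ⟨16, 24, 0, ⟨-588, 0⟩, ⟨0, 0⟩⟩,
    ⟨28, 36, 0, ⟨-588, 0⟩, ⟨0, 0⟩⟩,
    ⟨40, 48, 0, ⟨-196, 0⟩, ⟨0, 0⟩⟩,
    ⟨4, 0, 0, ⟨-196, 0⟩, ⟨0, 0⟩⟩,
    ⟨16, 0, 0, ⟨-588, 0⟩, ⟨0, 0⟩⟩,
    ⟨28, 0, 0, ⟨-588, 0⟩, ⟨0, 0⟩⟩,
    ⟨40, 0, 0, ⟨-196, 0⟩, ⟨0, 0⟩⟩]⟩],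
  60, [(0, 0, 0, 29), (12, 0, 0, 29), (12, 12, 0, 29)]⟩

def gC1 : Inst := ⟨6, [
  ⟨false, true, false, ⟨0, 0⟩, ⟨0, 0⟩, ⟨0, 0⟩, [
    ⟨20, 14, 0, ⟨1200, 0⟩, ⟨0, 0⟩⟩,
    ⟨32, 14, 0, ⟨2100, -300⟩, ⟨0, 0⟩⟩,
    ⟨32, 26, 0, ⟨2100, 300⟩, ⟨0, 0⟩⟩,
    ⟨44, 14, 0, ⟨1000, -200⟩, ⟨0, 0⟩⟩,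
    ⟨44, 26, 0, ⟨1800, 0⟩, ⟨0, 0⟩⟩,
    ⟨44, 38, 0, ⟨1000, 200⟩, ⟨0, 0⟩⟩,
    ⟨8, 14, 0, ⟨100, 100⟩, ⟨0, 0⟩⟩,
    ⟨20, 26, 0, ⟨300, 300⟩, ⟨0, 0⟩⟩,
    ⟨32, 38, 0, ⟨300, 300⟩, ⟨0, 0⟩⟩,
    ⟨44, 50, 0, ⟨100, 100⟩, ⟨0, 0⟩⟩,
    ⟨8, 2, 0, ⟨100, -100⟩, ⟨0, 0⟩⟩,
    ⟨20, 2, 0, ⟨300, -300⟩, ⟨0, 0⟩⟩,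
    ⟨32, 2, 0, ⟨300, -300⟩, ⟨0, 0⟩⟩,
    ⟨44, 2, 0, ⟨100, -100⟩, ⟨0, 0⟩⟩]⟩,
  ⟨true, true, false, ⟨0, 0⟩, ⟨0, 0⟩, ⟨0, 0⟩, [
    ⟨14, 14, 0, ⟨1000, -200⟩, ⟨0, 0⟩⟩,
    ⟨26, 14, 0, ⟨2100, -300⟩, ⟨0, 0⟩⟩,
    ⟨26, 26, 0, ⟨1800, 0⟩, ⟨0, 0⟩⟩,
    ⟨38, 14, 0, ⟨1200, 0⟩, ⟨0, 0⟩⟩,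
    ⟨38, 26, 0, ⟨2100, 300⟩, ⟨0, 0⟩⟩,
    ⟨38, 38, 0, ⟨1000, 200⟩, ⟨0, 0⟩⟩,
    ⟨50, 14, 0, ⟨100, 100⟩, ⟨0, 0⟩⟩,
    ⟨50, 26, 0, ⟨300, 300⟩, ⟨0, 0⟩⟩,
    ⟨50, 38, 0, ⟨300, 300⟩, ⟨0, 0⟩⟩,
    ⟨50, 50, 0, ⟨100, 100⟩, ⟨0, 0⟩⟩,
    ⟨2, 2, 0, ⟨100, -100⟩, ⟨0, 0⟩⟩,
    ⟨14, 2, 0, ⟨300, -300⟩, ⟨0, 0⟩⟩,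
    ⟨26, 2, 0, ⟨300, -300⟩, ⟨0, 0⟩⟩,
    ⟨38, 2, 0, ⟨100, -100⟩, ⟨0, 0⟩⟩]⟩,
  ⟨true, false, false, ⟨0, 0⟩, ⟨0, 0⟩, ⟨0, 0⟩, [
    ⟨14, 8, 0, ⟨1000, -200⟩, ⟨0, 0⟩⟩,
    ⟨26, 8, 0, ⟨1800, 0⟩, ⟨0, 0⟩⟩,
    ⟨26, 20, 0, ⟨2100, -300⟩, ⟨0, 0⟩⟩,
    ⟨38, 8, 0, ⟨1000, 200⟩, ⟨0, 0⟩⟩,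
    ⟨38, 20, 0, ⟨2100, 300⟩, ⟨0, 0⟩⟩,
    ⟨38, 32, 0, ⟨1200, 0⟩, ⟨0, 0⟩⟩,
    ⟨50, 8, 0, ⟨100, 100⟩, ⟨0, 0⟩⟩,
    ⟨50, 20, 0, ⟨300, 300⟩, ⟨0, 0⟩⟩,
    ⟨50, 32, 0, ⟨300, 300⟩, ⟨0, 0⟩⟩,
    ⟨50, 44, 0, ⟨100, 100⟩, ⟨0, 0⟩⟩,
    ⟨2, 8, 0, ⟨100, -100⟩, ⟨0, 0⟩⟩,
    ⟨14, 20, 0, ⟨300, -300⟩, ⟨0, 0⟩⟩,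
    ⟨26, 32, 0, ⟨300, -300⟩, ⟨0, 0⟩⟩,
    ⟨38, 44, 0, ⟨100, -100⟩, ⟨0, 0⟩⟩]⟩,
  ⟨false, false, false, ⟨0, 0⟩, ⟨0, 0⟩, ⟨0, 0⟩, [
    ⟨8, 8, 0, ⟨-486, 0⟩, ⟨0, 0⟩⟩,
    ⟨20, 8, 0, ⟨-2889, 0⟩, ⟨0, 0⟩⟩,
    ⟨20, 20, 0, ⟨-2889, 0⟩, ⟨0, 0⟩⟩,
    ⟨32, 8, 0, ⟨-2889, 0⟩, ⟨0, 0⟩⟩,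
    ⟨32, 20, 0, ⟨-2916, 0⟩, ⟨0, 0⟩⟩,
    ⟨32, 32, 0, ⟨-2889, 0⟩, ⟨0, 0⟩⟩,
    ⟨44, 8, 0, ⟨-486, 0⟩, ⟨0, 0⟩⟩,
    ⟨44, 20, 0, ⟨-2889, 0⟩, ⟨0, 0⟩⟩,
    ⟨44, 32, 0, ⟨-2889, 0⟩, ⟨0, 0⟩⟩,
    ⟨44, 44, 0, ⟨-486, 0⟩, ⟨0, 0⟩⟩,
    ⟨16, 12, 0, ⟨-1056, 0⟩, ⟨0, 0⟩⟩,
    ⟨28, 12, 0, ⟨-1980, 0⟩, ⟨0, 0⟩⟩,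
    ⟨28, 24, 0, ⟨-1980, 0⟩, ⟨0, 0⟩⟩,
    ⟨40, 12, 0, ⟨-1056, 0⟩, ⟨0, 0⟩⟩,
    ⟨40, 24, 0, ⟨-1980, 0⟩, ⟨0, 0⟩⟩,
    ⟨40, 36, 0, ⟨-1056, 0⟩, ⟨0, 0⟩⟩,
    ⟨52, 12, 0, ⟨-66, 0⟩, ⟨0, 0⟩⟩,
    ⟨52, 24, 0, ⟨-198, 0⟩, ⟨0, 0⟩⟩,
    ⟨52, 36, 0, ⟨-198, 0⟩, ⟨0, 0⟩⟩,
    ⟨52, 48, 0, ⟨-66, 0⟩, ⟨0, 0⟩⟩,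
    ⟨4, 12, 0, ⟨-66, 0⟩, ⟨0, 0⟩⟩,
    ⟨16, 24, 0, ⟨-198, 0⟩, ⟨0, 0⟩⟩,
    ⟨28, 36, 0, ⟨-198, 0⟩, ⟨0, 0⟩⟩,
    ⟨40, 48, 0, ⟨-66, 0⟩, ⟨0, 0⟩⟩,
    ⟨4, 0, 0, ⟨-66, 0⟩, ⟨0, 0⟩⟩,
    ⟨16, 0, 0, ⟨-198, 0⟩, ⟨0, 0⟩⟩,
    ⟨28, 0, 0, ⟨-198, 0⟩, ⟨0, 0⟩⟩,
    ⟨40, 0, 0, ⟨-66, 0⟩, ⟨0, 0⟩⟩]⟩],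
  60, [(0, 0, 0, 29), (12, 0, 0, 29), (12, 12, 0, 29)]⟩

def gC2 : Inst := ⟨12, [
  ⟨false, true, false, ⟨0, 0⟩, ⟨0, 0⟩, ⟨0, 0⟩, [
    ⟨20, 14, 0, ⟨480, 0⟩, ⟨0, 0⟩⟩,
    ⟨32, 14, 0, ⟨840, -240⟩, ⟨0, 0⟩⟩,
    ⟨32, 26, 0, ⟨840, 240⟩, ⟨0, 0⟩⟩,
    ⟨44, 14, 0, ⟨400, -160⟩, ⟨0, 0⟩⟩,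
    ⟨44, 26, 0, ⟨720, 0⟩, ⟨0, 0⟩⟩,
    ⟨44, 38, 0, ⟨400, 160⟩, ⟨0, 0⟩⟩,
    ⟨8, 14, 0, ⟨40, 80⟩, ⟨0, 0⟩⟩,
    ⟨20, 26, 0, ⟨120, 240⟩, ⟨0, 0⟩⟩,
    ⟨32, 38, 0, ⟨120, 240⟩, ⟨0, 0⟩⟩,
    ⟨44, 50, 0, ⟨40, 80⟩, ⟨0, 0⟩⟩,
    ⟨8, 2, 0, ⟨40, -80⟩, ⟨0, 0⟩⟩,
    ⟨20, 2, 0, ⟨120, -240⟩, ⟨0, 0⟩⟩,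
    ⟨32, 2, 0, ⟨120, -240⟩, ⟨0, 0⟩⟩,
    ⟨44, 2, 0, ⟨40, -80⟩, ⟨0, 0⟩⟩]⟩,
  ⟨true, true, false, ⟨0, 0⟩, ⟨0, 0⟩, ⟨0, 0⟩, [
    ⟨14, 14, 0, ⟨400, -160⟩, ⟨0, 0⟩⟩,
    ⟨26, 14, 0, ⟨840, -240⟩, ⟨0, 0⟩⟩,
    ⟨26, 26, 0, ⟨720, 0⟩, ⟨0, 0⟩⟩,
    ⟨38, 14, 0, ⟨480, 0⟩, ⟨0, 0⟩⟩,
    ⟨38, 26, 0, ⟨840, 240⟩, ⟨0, 0⟩⟩,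
    ⟨38, 38, 0, ⟨400, 160⟩, ⟨0, 0⟩⟩,
    ⟨50, 14, 0, ⟨40, 80⟩, ⟨0, 0⟩⟩,
    ⟨50, 26, 0, ⟨120, 240⟩, ⟨0, 0⟩⟩,
    ⟨50, 38, 0, ⟨120, 240⟩, ⟨0, 0⟩⟩,
    ⟨50, 50, 0, ⟨40, 80⟩, ⟨0, 0⟩⟩,
    ⟨2, 2, 0, ⟨40, -80⟩, ⟨0, 0⟩⟩,
    ⟨14, 2, 0, ⟨120, -240⟩, ⟨0, 0⟩⟩,
    ⟨26, 2, 0, ⟨120, -240⟩, ⟨0, 0⟩⟩,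
    ⟨38, 2, 0, ⟨40, -80⟩, ⟨0, 0⟩⟩]⟩,
  ⟨true, false, false, ⟨0, 0⟩, ⟨0, 0⟩, ⟨0, 0⟩, [
    ⟨14, 8, 0, ⟨400, -160⟩, ⟨0, 0⟩⟩,
    ⟨26, 8, 0, ⟨720, 0⟩, ⟨0, 0⟩⟩,
    ⟨26, 20, 0, ⟨840, -240⟩, ⟨0, 0⟩⟩,
    ⟨38, 8, 0, ⟨400, 160⟩, ⟨0, 0⟩⟩,
    ⟨38, 20, 0, ⟨840, 240⟩, ⟨0, 0⟩⟩,
    ⟨38, 32, 0, ⟨480, 0⟩, ⟨0, 0⟩⟩,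
    ⟨50, 8, 0, ⟨40, 80⟩, ⟨0, 0⟩⟩,
    ⟨50, 20, 0, ⟨120, 240⟩, ⟨0, 0⟩⟩,
    ⟨50, 32, 0, ⟨120, 240⟩, ⟨0, 0⟩⟩,
    ⟨50, 44, 0, ⟨40, 80⟩, ⟨0, 0⟩⟩,
    ⟨2, 8, 0, ⟨40, -80⟩, ⟨0, 0⟩⟩,
    ⟨14, 20, 0, ⟨120, -240⟩, ⟨0, 0⟩⟩,
    ⟨26, 32, 0, ⟨120, -240⟩, ⟨0, 0⟩⟩,
    ⟨38, 44, 0, ⟨40, -80⟩, ⟨0, 0⟩⟩]⟩,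
  ⟨false, false, false, ⟨0, 0⟩, ⟨0, 0⟩, ⟨0, 0⟩, [
    ⟨8, 8, 0, ⟨-766, 0⟩, ⟨0, 0⟩⟩,
    ⟨20, 8, 0, ⟨-5979, 0⟩, ⟨0, 0⟩⟩,
    ⟨20, 20, 0, ⟨-5979, 0⟩, ⟨0, 0⟩⟩,
    ⟨32, 8, 0, ⟨-5979, 0⟩, ⟨0, 0⟩⟩,
    ⟨32, 20, 0, ⟨-4596, 0⟩, ⟨0, 0⟩⟩,
    ⟨32, 32, 0, ⟨-5979, 0⟩, ⟨0, 0⟩⟩,
    ⟨44, 8, 0, ⟨-766, 0⟩, ⟨0, 0⟩⟩,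
    ⟨44, 20, 0, ⟨-5979, 0⟩, ⟨0, 0⟩⟩,
    ⟨44, 32, 0, ⟨-5979, 0⟩, ⟨0, 0⟩⟩,
    ⟨44, 44, 0, ⟨-766, 0⟩, ⟨0, 0⟩⟩,
    ⟨16, 12, 0, ⟨2944, 0⟩, ⟨0, 0⟩⟩,
    ⟨28, 12, 0, ⟨5520, 0⟩, ⟨0, 0⟩⟩,
    ⟨28, 24, 0, ⟨5520, 0⟩, ⟨0, 0⟩⟩,
    ⟨40, 12, 0, ⟨2944, 0⟩, ⟨0, 0⟩⟩,
    ⟨40, 24, 0, ⟨5520, 0⟩, ⟨0, 0⟩⟩,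
    ⟨40, 36, 0, ⟨2944, 0⟩, ⟨0, 0⟩⟩,
    ⟨52, 12, 0, ⟨184, 0⟩, ⟨0, 0⟩⟩,
    ⟨52, 24, 0, ⟨552, 0⟩, ⟨0, 0⟩⟩,
    ⟨52, 36, 0, ⟨552, 0⟩, ⟨0, 0⟩⟩,
    ⟨52, 48, 0, ⟨184, 0⟩, ⟨0, 0⟩⟩,
    ⟨4, 12, 0, ⟨184, 0⟩, ⟨0, 0⟩⟩,
    ⟨16, 24, 0, ⟨552, 0⟩, ⟨0, 0⟩⟩,
    ⟨28, 36, 0, ⟨552, 0⟩, ⟨0, 0⟩⟩,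
    ⟨40, 48, 0, ⟨184, 0⟩, ⟨0, 0⟩⟩,
    ⟨4, 0, 0, ⟨184, 0⟩, ⟨0, 0⟩⟩,
    ⟨16, 0, 0, ⟨552, 0⟩, ⟨0, 0⟩⟩,
    ⟨28, 0, 0, ⟨552, 0⟩, ⟨0, 0⟩⟩,
    ⟨40, 0, 0, ⟨184, 0⟩, ⟨0, 0⟩⟩]⟩],
  60, [(0, 0, 0, 29), (12, 0, 0, 29), (12, 12, 0, 29)]⟩

def gC3 : Inst := ⟨18, [
  ⟨false, true, false, ⟨0, 0⟩, ⟨0, 0⟩, ⟨0, 0⟩, [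
    ⟨20, 14, 0, ⟨48, 0⟩, ⟨0, 0⟩⟩,
    ⟨32, 14, 0, ⟨84, -36⟩, ⟨0, 0⟩⟩,
    ⟨32, 26, 0, ⟨84, 36⟩, ⟨0, 0⟩⟩,
    ⟨44, 14, 0, ⟨40, -24⟩, ⟨0, 0⟩⟩,
    ⟨44, 26, 0, ⟨72, 0⟩, ⟨0, 0⟩⟩,
    ⟨44, 38, 0, ⟨40, 24⟩, ⟨0, 0⟩⟩,
    ⟨8, 14, 0, ⟨4, 12⟩, ⟨0, 0⟩⟩,
    ⟨20, 26, 0, ⟨12, 36⟩, ⟨0, 0⟩⟩,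
    ⟨32, 38, 0, ⟨12, 36⟩, ⟨0, 0⟩⟩,
    ⟨44, 50, 0, ⟨4, 12⟩, ⟨0, 0⟩⟩,
    ⟨8, 2, 0, ⟨4, -12⟩, ⟨0, 0⟩⟩,
    ⟨20, 2, 0, ⟨12, -36⟩, ⟨0, 0⟩⟩,
    ⟨32, 2, 0, ⟨12, -36⟩, ⟨0, 0⟩⟩,
    ⟨44, 2, 0, ⟨4, -12⟩, ⟨0, 0⟩⟩]⟩,
  ⟨true, true, false, ⟨0, 0⟩, ⟨0, 0⟩, ⟨0, 0⟩, [
    ⟨14, 14, 0, ⟨40, -24⟩, ⟨0, 0⟩⟩,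
    ⟨26, 14, 0, ⟨84, -36⟩, ⟨0, 0⟩⟩,
    ⟨26, 26, 0, ⟨72, 0⟩, ⟨0, 0⟩⟩,
    ⟨38, 14, 0, ⟨48, 0⟩, ⟨0, 0⟩⟩,
    ⟨38, 26, 0, ⟨84, 36⟩, ⟨0, 0⟩⟩,
    ⟨38, 38, 0, ⟨40, 24⟩, ⟨0, 0⟩⟩,
    ⟨50, 14, 0, ⟨4, 12⟩, ⟨0, 0⟩⟩,
    ⟨50, 26, 0, ⟨12, 36⟩, ⟨0, 0⟩⟩,
    ⟨50, 38, 0, ⟨12, 36⟩, ⟨0, 0⟩⟩,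
    ⟨50, 50, 0, ⟨4, 12⟩, ⟨0, 0⟩⟩,
    ⟨2, 2, 0, ⟨4, -12⟩, ⟨0, 0⟩⟩,
    ⟨14, 2, 0, ⟨12, -36⟩, ⟨0, 0⟩⟩,
    ⟨26, 2, 0, ⟨12, -36⟩, ⟨0, 0⟩⟩,
    ⟨38, 2, 0, ⟨4, -12⟩, ⟨0, 0⟩⟩]⟩,
  ⟨true, false, false, ⟨0, 0⟩, ⟨0, 0⟩, ⟨0, 0⟩, [
    ⟨14, 8, 0, ⟨40, -24⟩, ⟨0, 0⟩⟩,
    ⟨26, 8, 0, ⟨72, 0⟩, ⟨0, 0⟩⟩,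
    ⟨26, 20, 0, ⟨84, -36⟩, ⟨0, 0⟩⟩,
    ⟨38, 8, 0, ⟨40, 24⟩, ⟨0, 0⟩⟩,
    ⟨38, 20, 0, ⟨84, 36⟩, ⟨0, 0⟩⟩,
    ⟨38, 32, 0, ⟨48, 0⟩, ⟨0, 0⟩⟩,
    ⟨50, 8, 0, ⟨4, 12⟩, ⟨0, 0⟩⟩,
    ⟨50, 20, 0, ⟨12, 36⟩, ⟨0, 0⟩⟩,
    ⟨50, 32, 0, ⟨12, 36⟩, ⟨0, 0⟩⟩,
    ⟨50, 44, 0, ⟨4, 12⟩, ⟨0, 0⟩⟩,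
    ⟨2, 8, 0, ⟨4, -12⟩, ⟨0, 0⟩⟩,
    ⟨14, 20, 0, ⟨12, -36⟩, ⟨0, 0⟩⟩,
    ⟨26, 32, 0, ⟨12, -36⟩, ⟨0, 0⟩⟩,
    ⟨38, 44, 0, ⟨4, -12⟩, ⟨0, 0⟩⟩]⟩,
  ⟨false, false, false, ⟨0, 0⟩, ⟨0, 0⟩, ⟨0, 0⟩, [
    ⟨8, 8, 0, ⟨-262, 0⟩, ⟨0, 0⟩⟩,
    ⟨20, 8, 0, ⟨-1875, 0⟩, ⟨0, 0⟩⟩,
    ⟨20, 20, 0, ⟨-1875, 0⟩, ⟨0, 0⟩⟩,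
    ⟨32, 8, 0, ⟨-1875, 0⟩, ⟨0, 0⟩⟩,
    ⟨32, 20, 0, ⟨-1572, 0⟩, ⟨0, 0⟩⟩,
    ⟨32, 32, 0, ⟨-1875, 0⟩, ⟨0, 0⟩⟩,
    ⟨44, 8, 0, ⟨-262, 0⟩, ⟨0, 0⟩⟩,
    ⟨44, 20, 0, ⟨-1875, 0⟩, ⟨0, 0⟩⟩,
    ⟨44, 32, 0, ⟨-1875, 0⟩, ⟨0, 0⟩⟩,
    ⟨44, 44, 0, ⟨-262, 0⟩, ⟨0, 0⟩⟩,
    ⟨16, 12, 0, ⟨1216, 0⟩, ⟨0, 0⟩⟩,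
    ⟨28, 12, 0, ⟨2280, 0⟩, ⟨0, 0⟩⟩,
    ⟨28, 24, 0, ⟨2280, 0⟩, ⟨0, 0⟩⟩,
    ⟨40, 12, 0, ⟨1216, 0⟩, ⟨0, 0⟩⟩,
    ⟨40, 24, 0, ⟨2280, 0⟩, ⟨0, 0⟩⟩,
    ⟨40, 36, 0, ⟨1216, 0⟩, ⟨0, 0⟩⟩,
    ⟨52, 12, 0, ⟨76, 0⟩, ⟨0, 0⟩⟩,
    ⟨52, 24, 0, ⟨228, 0⟩, ⟨0, 0⟩⟩,
    ⟨52, 36, 0, ⟨228, 0⟩, ⟨0, 0⟩⟩,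
    ⟨52, 48, 0, ⟨76, 0⟩, ⟨0, 0⟩⟩,
    ⟨4, 12, 0, ⟨76, 0⟩, ⟨0, 0⟩⟩,
    ⟨16, 24, 0, ⟨228, 0⟩, ⟨0, 0⟩⟩,
    ⟨28, 36, 0, ⟨228, 0⟩, ⟨0, 0⟩⟩,
    ⟨40, 48, 0, ⟨76, 0⟩, ⟨0, 0⟩⟩,
    ⟨4, 0, 0, ⟨76, 0⟩, ⟨0, 0⟩⟩,
    ⟨16, 0, 0, ⟨228, 0⟩, ⟨0, 0⟩⟩,
    ⟨28, 0, 0, ⟨228, 0⟩, ⟨0, 0⟩⟩,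
    ⟨40, 0, 0, ⟨76, 0⟩, ⟨0, 0⟩⟩]⟩],
  60, [(0, 0, 0, 29), (12, 0, 0, 29), (12, 12, 0, 29)]⟩

def gC4 : Inst := ⟨24, [
  ⟨false, true, false, ⟨0, 0⟩, ⟨0, 0⟩, ⟨0, 0⟩, [
    ⟨20, 14, 0, ⟨96, 0⟩, ⟨0, 0⟩⟩,
    ⟨32, 14, 0, ⟨168, -96⟩, ⟨0, 0⟩⟩,
    ⟨32, 26, 0, ⟨168, 96⟩, ⟨0, 0⟩⟩,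
    ⟨44, 14, 0, ⟨80, -64⟩, ⟨0, 0⟩⟩,
    ⟨44, 26, 0, ⟨144, 0⟩, ⟨0, 0⟩⟩,
    ⟨44, 38, 0, ⟨80, 64⟩, ⟨0, 0⟩⟩,
    ⟨8, 14, 0, ⟨8, 32⟩, ⟨0, 0⟩⟩,
    ⟨20, 26, 0, ⟨24, 96⟩, ⟨0, 0⟩⟩,
    ⟨32, 38, 0, ⟨24, 96⟩, ⟨0, 0⟩⟩,
    ⟨44, 50, 0, ⟨8, 32⟩, ⟨0, 0⟩⟩,
    ⟨8, 2, 0, ⟨8, -32⟩, ⟨0, 0⟩⟩,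
    ⟨20, 2, 0, ⟨24, -96⟩, ⟨0, 0⟩⟩,
    ⟨32, 2, 0, ⟨24, -96⟩, ⟨0, 0⟩⟩,
    ⟨44, 2, 0, ⟨8, -32⟩, ⟨0, 0⟩⟩]⟩,
  ⟨true, true, false, ⟨0, 0⟩, ⟨0, 0⟩, ⟨0, 0⟩, [
    ⟨14, 14, 0, ⟨80, -64⟩, ⟨0, 0⟩⟩,
    ⟨26, 14, 0, ⟨168, -96⟩, ⟨0, 0⟩⟩,
    ⟨26, 26, 0, ⟨144, 0⟩, ⟨0, 0⟩⟩,
    ⟨38, 14, 0, ⟨96, 0⟩, ⟨0, 0⟩⟩,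
    ⟨38, 26, 0, ⟨168, 96⟩, ⟨0, 0⟩⟩,
    ⟨38, 38, 0, ⟨80, 64⟩, ⟨0, 0⟩⟩,
    ⟨50, 14, 0, ⟨8, 32⟩, ⟨0, 0⟩⟩,
    ⟨50, 26, 0, ⟨24, 96⟩, ⟨0, 0⟩⟩,
    ⟨50, 38, 0, ⟨24, 96⟩, ⟨0, 0⟩⟩,
    ⟨50, 50, 0, ⟨8, 32⟩, ⟨0, 0⟩⟩,
    ⟨2, 2, 0, ⟨8, -32⟩, ⟨0, 0⟩⟩,
    ⟨14, 2, 0, ⟨24, -96⟩, ⟨0, 0⟩⟩,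
    ⟨26, 2, 0, ⟨24, -96⟩, ⟨0, 0⟩⟩,
    ⟨38, 2, 0, ⟨8, -32⟩, ⟨0, 0⟩⟩]⟩,
  ⟨true, false, false, ⟨0, 0⟩, ⟨0, 0⟩, ⟨0, 0⟩, [
    ⟨14, 8, 0, ⟨80, -64⟩, ⟨0, 0⟩⟩,
    ⟨26, 8, 0, ⟨144, 0⟩, ⟨0, 0⟩⟩,
    ⟨26, 20, 0, ⟨168, -96⟩, ⟨0, 0⟩⟩,
    ⟨38, 8, 0, ⟨80, 64⟩, ⟨0, 0⟩⟩,
    ⟨38, 20, 0, ⟨168, 96⟩, ⟨0, 0⟩⟩,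
    ⟨38, 32, 0, ⟨96, 0⟩, ⟨0, 0⟩⟩,
    ⟨50, 8, 0, ⟨8, 32⟩, ⟨0, 0⟩⟩,
    ⟨50, 20, 0, ⟨24, 96⟩, ⟨0, 0⟩⟩,
    ⟨50, 32, 0, ⟨24, 96⟩, ⟨0, 0⟩⟩,
    ⟨50, 44, 0, ⟨8, 32⟩, ⟨0, 0⟩⟩,
    ⟨2, 8, 0, ⟨8, -32⟩, ⟨0, 0⟩⟩,
    ⟨14, 20, 0, ⟨24, -96⟩, ⟨0, 0⟩⟩,
    ⟨26, 32, 0, ⟨24, -96⟩, ⟨0, 0⟩⟩,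
    ⟨38, 44, 0, ⟨8, -32⟩, ⟨0, 0⟩⟩]⟩,
  ⟨false, false, false, ⟨0, 0⟩, ⟨0, 0⟩, ⟨0, 0⟩, [
    ⟨8, 8, 0, ⟨-1710, 0⟩, ⟨0, 0⟩⟩,
    ⟨20, 8, 0, ⟨-10827, 0⟩, ⟨0, 0⟩⟩,
    ⟨20, 20, 0, ⟨-10827, 0⟩, ⟨0, 0⟩⟩,
    ⟨32, 8, 0, ⟨-10827, 0⟩, ⟨0, 0⟩⟩,
    ⟨32, 20, 0, ⟨-10260, 0⟩, ⟨0, 0⟩⟩,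
    ⟨32, 32, 0, ⟨-10827, 0⟩, ⟨0, 0⟩⟩,
    ⟨44, 8, 0, ⟨-1710, 0⟩, ⟨0, 0⟩⟩,
    ⟨44, 20, 0, ⟨-10827, 0⟩, ⟨0, 0⟩⟩,
    ⟨44, 32, 0, ⟨-10827, 0⟩, ⟨0, 0⟩⟩,
    ⟨44, 44, 0, ⟨-1710, 0⟩, ⟨0, 0⟩⟩,
    ⟨16, 12, 0, ⟨7680, 0⟩, ⟨0, 0⟩⟩,
    ⟨28, 12, 0, ⟨14400, 0⟩, ⟨0, 0⟩⟩,
    ⟨28, 24, 0, ⟨14400, 0⟩, ⟨0, 0⟩⟩,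
    ⟨40, 12, 0, ⟨7680, 0⟩, ⟨0, 0⟩⟩,
    ⟨40, 24, 0, ⟨14400, 0⟩, ⟨0, 0⟩⟩,
    ⟨40, 36, 0, ⟨7680, 0⟩, ⟨0, 0⟩⟩,
    ⟨52, 12, 0, ⟨480, 0⟩, ⟨0, 0⟩⟩,
    ⟨52, 24, 0, ⟨1440, 0⟩, ⟨0, 0⟩⟩,
    ⟨52, 36, 0, ⟨1440, 0⟩, ⟨0, 0⟩⟩,
    ⟨52, 48, 0, ⟨480, 0⟩, ⟨0, 0⟩⟩,
    ⟨4, 12, 0, ⟨480, 0⟩, ⟨0, 0⟩⟩,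
    ⟨16, 24, 0, ⟨1440, 0⟩, ⟨0, 0⟩⟩,
    ⟨28, 36, 0, ⟨1440, 0⟩, ⟨0, 0⟩⟩,
    ⟨40, 48, 0, ⟨480, 0⟩, ⟨0, 0⟩⟩,
    ⟨4, 0, 0, ⟨480, 0⟩, ⟨0, 0⟩⟩,
    ⟨16, 0, 0, ⟨1440, 0⟩, ⟨0, 0⟩⟩,
    ⟨28, 0, 0, ⟨1440, 0⟩, ⟨0, 0⟩⟩,
    ⟨40, 0, 0, ⟨480, 0⟩, ⟨0, 0⟩⟩]⟩],
  6, [(0, 0, 0, 3), (12, 0, 0, 3), (12, 12, 0, 3)]⟩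

end Crest.Agent.R163.E2
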